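import Vale.Agent.P032.H61.SymA
import Vale.Agent.P032.H515.GenS

/-!
# P032: rotations and mirror images of palette words and set states (wild frame)

* `ins_mir`, `ots_mir`, `ip_mir` : the inner and outer colours of the mirror image,
* `rst_trW`, `lst_trW` : one sided set states under a change of the nodes and of the time,
* `rst_mirW`, `lst_mirW` : one sided set states of the mirror image.
-/

open Set Filter Topology Metric

noncomputable section

namespace Vale.Agent.P032.H529.W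

open Vale.Agent.P032.Six Vale.Agent.P032.Words Vale.Agent.P032.S5.H767 Vale.Agent.P032.H892
  Vale.Agent.P032.H913 Vale.Agent.P032.H357 Vale.Agent.P032.H61 Vale.Agent.P032.H556 Vale.Agent.P032.H515

variable {U : Fin 6 → Set ℂ} {T : ℂ → Set (Fin 6)}

theorem fr_cj {x : ℂ} {p : ℂ → Prop} : (∃ᶠ w in 𝓝 (cj x), p (cj w)) ↔ ∃ᶠ w in 𝓝 x, p w := by
  constructor
  · intro h
    have h1 : ∃ᶠ w in 𝓝 x, p (cj (cj w)) := fr_isom cj h
    exact h1.mono fun w hw => by rw [cj_cj] at hw; exact hw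
  · intro h
    refine fr_isom cj ?_
    rw [cj_cj]; exact h

theorem ins_mir (x : ℂ) (v : ℝ) : Ins (mT T) (cj x) v = Ins T x (-v) := by
  ext p
  show (∃ᶠ y in 𝓝 (pt (cj x) v), T (cj y) = {p} ∧ dist y (cj x) < 1) ↔
    ∃ᶠ y in 𝓝 (pt x (-v)), T y = {p} ∧ dist y x < 1
  have e : pt (cj x) v = cj (pt x (-v)) := by rw [cj_ptx, neg_neg]
  rw [e, ← fr_cj (x := pt x (-v))]
  refine frequently_congr (Eventually.of_forall fun y => ?_)
  rw [cj_dist]

theorem ots_mir (x : ℂ) (v : ℝ) : Ots (mT T) (cj x) v = Ots T x (-v) := by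
  ext p
  show (∃ᶠ y in 𝓝 (pt (cj x) v), T (cj y) = {p} ∧ 1 < dist y (cj x)) ↔
    ∃ᶠ y in 𝓝 (pt x (-v)), T y = {p} ∧ 1 < dist y x
  have e : pt (cj x) v = cj (pt x (-v)) := by rw [cj_ptx, neg_neg]
  rw [e, ← fr_cj (x := pt x (-v))]
  refine frequently_congr (Eventually.of_forall fun y => ?_)
  rw [cj_dist]

/-- the mirror image of a palette word -/
theorem ip_mir {x : ℂ} {s : ℝ} {P Q : Set (Fin 6)} (I : IP U T x s P Q) :
    IP (mU U) (mT T) (cj x) (-s) P Q where
  loc := by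
    have h1 := tendsto_neg_nhds (-s)
    rw [neg_neg] at h1
    filter_upwards [h1.eventually I.loc] with v hv
    show T (cj (pt (cj x) v)) = T (cj (pt (cj x) (-s)))
    rw [cj_ptx, cj_ptx, cj_cj, neg_neg]
    exact hv
  inn := fun p => by
    rw [I.inn p]
    have h1 : (∃ᶠ y in 𝓝 (pt (cj x) (-s)), mT T y = {p} ∧ dist y (cj x) < 1) ↔ p ∈ Ins (mT T) (cj x) (-s) := Iff.rfl
    rw [h1, ins_mir, neg_neg]
    exact Iff.rfl
  out := fun p => by
    rw [I.out p]
    have h1 : (∃ᶠ y in 𝓝 (pt (cj x) (-s)), mT T y = {p} ∧ 1 < dist y (cj x)) ↔ p ∈ Ots (mT T) (cj x) (-s) := Iff.rfl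
    rw [h1, ots_mir, neg_neg]
    exact Iff.rfl
  evP := by
    have h1 := tendsto_neg_nhds (-s)
    rw [neg_neg] at h1
    filter_upwards [h1.eventually I.evP] with v hv
    rw [ins_mir]; exact hv
  evQ := by
    have h1 := tendsto_neg_nhds (-s)
    rw [neg_neg] at h1
    filter_upwards [h1.eventually I.evQ] with v hv
    rw [ots_mir]; exact hv

section
variable {M M' : Type*} {X : M → ℂ} {o : M → ℝ} {X' : M' → ℂ} {o' : M' → ℝ}
  {s : M → Set (Fin 6) × Set (Fin 6)} {u d : ℝ}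

/-- change of the nodes and of the time -/
theorem rst_trW (f : M' → M) (hX : ∀ i, X' i = X (f i)) (ho : ∀ i, ∃ n : ℤ, o' i + d = o (f i) + 6 * n)
    (hs : s ∈ RSt DO (IPs U T X o) u) : (fun i => s (f i)) ∈ RSt DO (IPs U T X' o') (u + d) := by
  have hs : ∃ᶠ v in 𝓝[>] u ⊓ DO, IPs U T X o v s := hs
  refine (tendsto_R u d).frequently (hs.mono fun v hv i => ?_)
  obtain ⟨n, hn⟩ := ho i
  have e : v + d + o' i = v + o (f i) + 6 * n := by rw [add_assoc, add_comm d, hn]; ring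
  rw [e, hX i]
  exact (hv (f i)).per n

theorem lst_trW (f : M' → M) (hX : ∀ i, X' i = X (f i)) (ho : ∀ i, ∃ n : ℤ, o' i + d = o (f i) + 6 * n)
    (hs : s ∈ LSt DO (IPs U T X o) u) : (fun i => s (f i)) ∈ LSt DO (IPs U T X' o') (u + d) := by
  have hs : ∃ᶠ v in 𝓝[<] u ⊓ DO, IPs U T X o v s := hs
  refine (tendsto_L u d).frequently (hs.mono fun v hv i => ?_)
  obtain ⟨n, hn⟩ := ho i
  have e : v + d + o' i = v + o (f i) + 6 * n := by rw [add_assoc, add_comm d, hn]; ring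
  rw [e, hX i]
  exact (hv (f i)).per n

/-- the mirror image of a left state -/
theorem rst_mirW (f : M' → M) (hX : ∀ i, X' i = cj (X (f i))) (ho : ∀ i, ∃ n : ℤ, o' i = - o (f i) + 6 * n)
    (hs : s ∈ LSt DO (IPs U T X o) u) : (fun i => s (f i)) ∈ RSt DO (IPs (mU U) (mT T) X' o') (-u) := by
  have hs : ∃ᶠ v in 𝓝[<] u ⊓ DO, IPs U T X o v s := hs
  refine (tendsto_neg_L u).frequently (hs.mono fun v hv i => ?_)
  obtain ⟨n, hn⟩ := ho i
  have e : -v + o' i = -(v + o (f i)) + 6 * n := by rw [hn]; ring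
  rw [e, hX i]
  exact (ip_mir (hv (f i))).per n

/-- the mirror image of a right state -/
theorem lst_mirW (f : M' → M) (hX : ∀ i, X' i = cj (X (f i))) (ho : ∀ i, ∃ n : ℤ, o' i = - o (f i) + 6 * n)
    (hs : s ∈ RSt DO (IPs U T X o) u) : (fun i => s (f i)) ∈ LSt DO (IPs (mU U) (mT T) X' o') (-u) := by
  have hs : ∃ᶠ v in 𝓝[>] u ⊓ DO, IPs U T X o v s := hs
  refine (tendsto_neg_R u).frequently (hs.mono fun v hv i => ?_)
  obtain ⟨n, hn⟩ := ho i
  have e : -v + o' i = -(v + o (f i)) + 6 * n := by rw [hn]; ring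
  rw [e, hX i]
  exact (ip_mir (hv (f i))).per n

end

/-! ### sectors and zones of the union sets -/

/-- the zones of the mirror image for a family member -/
theorem u_mir (q : Fin 6) : mU U q = cj ⁻¹' U q := rfl

end Vale.Agent.P032.H529.W
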