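import Vale.Agent.P032.H529.W.FrA
import Vale.Agent.P032.H61.SymB

/-!
# P032: wild frames and their symmetries

A frame `F : FrW` is a covering (`U`, `T`), a centre `z`, a direction `b` (class 0 = the directions `b + m`), a numbering
`σ` of the colours and the one sided set states `s0` (right of `b`), `s1` (left of `b + 1`) of the points number `cx c`.
Point number `x` of class 0 has the hexagonal coordinates `κ x`.

* `tva κ F kd x j k q` : the meaning of the atoms of class 0 (the codes of `H240.W.MdW.bv`),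
* `FrW.rot`, `FrW.mir`, `FrW.col` : rotation by 60 degrees, mirror image, permutation of the colours,
* `tva_rot`, `tva_mir`, `tva_col` : the atoms of the images.
-/

open Set Filter Topology Metric

noncomputable section

namespace Vale.Agent.P032.H529.W

open Vale.Agent.P032.Six Vale.Agent.P032.Words Vale.Agent.P032.S5.H767 Vale.Agent.P032.H892
  Vale.Agent.P032.H913 Vale.Agent.P032.H357 Vale.Agent.P032.H61 Vale.Agent.P032.H556 Vale.Agent.P032.H515
open Vale.Agent.P032.H357.MK (co no co_no co_surj no_co co_inj)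

/-- a set state -/
abbrev Ss := ℕ × Fin 6 → Set (Fin 6) × Set (Fin 6)

/-- a frame -/
structure FrW where
  /-- the sets of the colours -/
  U : Fin 6 → Set ℂ
  /-- the cover -/
  T : ℂ → Set (Fin 6)
  /-- the centre -/
  z : ℂ
  /-- the direction -/
  b : ℝ
  /-- the numbers of the colours -/
  σ : Equiv.Perm (Fin 6)
  /-- the palette words just after `b + m` -/
  s0 : Ss
  /-- the palette words just before `b + 1 + m` -/
  s1 : Ss

/-- inner or outer component -/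
def cms (io : ℕ) (p : Set (Fin 6) × Set (Fin 6)) : Set (Fin 6) := if io = 0 then p.1 else p.2

/-- the chosen letter of a palette word at the point `y` -/
def pkS (U : Fin 6 → Set ℂ) (T : ℂ → Set (Fin 6)) (y : ℂ) (p : Set (Fin 6) × Set (Fin 6)) : Fin 6 × Fin 6 :=
  pick p.1 p.2 (Pal U y) (T y)

/-- point number `x` -/
def FrW.P (κ : ℕ → ℤ × ℤ) (F : FrW) (x : ℕ) : ℂ := hp F.z F.b (κ x)

/-- the palette word of the point `x` at the direction `j` (even), side `sd` -/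
def FrW.lt (F : FrW) (x j sd : ℕ) : Set (Fin 6) × Set (Fin 6) :=
  if sd = 0 then F.s1 (x, f6 (j / 2 + 5)) else F.s0 (x, f6 (j / 2))

/-- the colours of both sides -/
def bo (p : Set (Fin 6) × Set (Fin 6)) : Set (Fin 6) := p.1 ∪ p.2

/-- **the meaning of the atoms of class 0** -/
def tva (κ : ℕ → ℤ × ℤ) (F : FrW) (kd x j k q : ℕ) : Prop :=
  if kd = 0 then Zc (Sq F.T (co F.σ q)) (F.P κ x) (F.b + ((j / 2 : ℕ) : ℝ)) k else
  if kd = 1 then Zc (F.U (co F.σ q)) (F.P κ x) (F.b + ((j / 2 : ℕ) : ℝ)) k else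
  if kd = 4 then co F.σ q ∈ F.T (F.P κ x) else
  if kd = 5 then co F.σ q ∈ Pal F.U (F.P κ x) else
  if kd = 6 then F.P κ x ∈ XX F.U else
  if kd = 9 then cmp (k % 2) (pkS F.U F.T (F.P κ x) (F.lt x j (k / 2))) = co F.σ q else
  if kd = 11 then
    (if k < 4 then co F.σ q ∈ cms (k % 2) (F.lt x j (k / 2)) else
      if k < 6 then co F.σ q ∈ bo (F.lt x j (k - 4)) else
        co F.σ q ∈ bo (F.lt x j (k - 6)) ∧ co F.σ q ∉ F.T (F.P κ x)) else
  if k = 0 then Se F.T (F.P κ x) (co F.σ q) (F.b + j) else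
  if k = 3 then AccR (Sh F.T (F.P κ x) (co F.σ q)) (F.b + j) else
  if k = 4 then AccL (Sh F.T (F.P κ x) (co F.σ q)) (F.b + j + 1) else j ≤ (F.T (F.P κ x)).ncard

/-- the atoms of class 0 -/
structure Va (G : ℕ → Prop) (kd x j k q : ℕ) : Prop where
  kind : ((kd = 0 ∨ kd = 1) ∧ j % 2 = 0 ∧ j < 12 ∧ 1 ≤ k ∧ k ≤ 3) ∨ ((kd = 4 ∨ kd = 5 ∨ kd = 6) ∧ j = 0 ∧ k = 0) ∨
    (kd = 9 ∧ j % 2 = 0 ∧ j < 12 ∧ k < 4) ∨ (kd = 11 ∧ j % 2 = 0 ∧ j < 12 ∧ k < 8) ∨
    (kd = 12 ∧ (k = 0 ∨ k = 3 ∨ k = 4) ∧ j < 6) ∨ (kd = 12 ∧ k = 5 ∧ j < 8)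
  pt : G x
  col : q < 6
  six : kd = 6 ∨ (kd = 12 ∧ k = 5) → q = 0

/-! ### rotation -/

/-- the frame turned by 60 degrees -/
def FrW.rot (pr : ℕ → ℕ) (F : FrW) : FrW where
  U := F.U
  T := F.T
  z := F.z
  b := F.b + 1
  σ := F.σ
  s0 := fun i => F.s0 (pr i.1, i.2 + 1)
  s1 := fun i => F.s1 (pr i.1, i.2 + 1)

/-- the direction of an atom of the turned frame -/
def rj (kd j k r : ℕ) : ℕ :=
  if kd = 0 ∨ kd = 1 ∨ kd = 9 ∨ kd = 11 then (j + 2 * r) % 12 else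
    if kd = 12 ∧ k ≠ 5 then (j + r) % 6 else j

section
variable {κ : ℕ → ℤ × ℤ} {G : ℕ → Prop} {pr pm : ℕ → ℕ} {F : FrW} {kd x j k q : ℕ}

theorem P_rot (hκ : κ (pr x) = rC (κ x)) : (F.rot pr).P κ x = F.P κ (pr x) := by
  show hp F.z (F.b + 1) (κ x) = hp F.z F.b (κ (pr x))
  rw [hp_rot, hκ]

theorem lt_rot {sd : ℕ} (hj : j % 2 = 0) (hj2 : j < 12) :
    (F.rot pr).lt x j sd = F.lt (pr x) ((j + 2) % 12) sd := by
  unfold FrW.lt
  have e3 : (F.rot pr).s0 (x, f6 (j / 2)) = F.s0 (pr x, f6 ((j + 2) % 12 / 2)) := by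
    show F.s0 (pr x, f6 (j / 2) + 1) = _
    rw [f6_add, f6_eq (m := j / 2 + 1) (n := (j + 2) % 12 / 2) (by omega)]
  have e4 : (F.rot pr).s1 (x, f6 (j / 2 + 5)) = F.s1 (pr x, f6 ((j + 2) % 12 / 2 + 5)) := by
    show F.s1 (pr x, f6 (j / 2 + 5) + 1) = _
    rw [f6_add, f6_eq (m := j / 2 + 5 + 1) (n := (j + 2) % 12 / 2 + 5) (by omega)]
  rw [e3, e4]

/-- **the atoms of the turned frame** -/
theorem tva_rot (hκ : κ (pr x) = rC (κ x)) (hv : Va G kd x j k q) :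
    tva κ (F.rot pr) kd x j k q ↔ tva κ F kd (pr x) (rj kd j k 1) k q := by
  have eP := P_rot (F := F) hκ
  have ec : co (F.rot pr).σ q = co F.σ q := rfl
  have eT : (F.rot pr).T = F.T := rfl
  have eU : (F.rot pr).U = F.U := rfl
  have eb : (F.rot pr).b = F.b + 1 := rfl
  have e1 : ∀ n : ℕ, F.b + 1 + (n : ℝ) = F.b + ((n + 1 : ℕ) : ℝ) := fun n => by push_cast; ring
  unfold tva rj
  rw [eP, ec, eT, eU, eb]
  rcases hv.kind with ⟨h0, h1, h2, h3, h4⟩ | ⟨h0, h1, h2⟩ | ⟨rfl, h1, h2, h3⟩ | ⟨rfl, h1, h2, h3⟩ | ⟨rfl, h0, h1⟩ |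
    ⟨rfl, rfl, h1⟩
  · rcases h0 with rfl | rfl
    · norm_num
      rw [show (j + 2) % 12 / 2 = (j / 2 + 1) % 6 by omega, zc_nat, e1]
    · norm_num
      rw [show (j + 2) % 12 / 2 = (j / 2 + 1) % 6 by omega, zc_nat, e1]
  · rcases h0 with rfl | rfl | rfl <;> norm_num
  · norm_num
    rw [lt_rot h1 h2]
  · norm_num
    rw [lt_rot h1 h2, lt_rot h1 h2, lt_rot h1 h2]
  · rcases h0 with rfl | rfl | rfl
    · norm_num
      rw [se_nat, e1]
    · norm_num
      rw [accR_nat, e1]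
    · norm_num
      rw [accL_nat]
      have e2 : F.b + 1 + (j : ℝ) + 1 = F.b + ((j + 1 : ℕ) : ℝ) + 1 := by push_cast; ring
      rw [e2]
  · norm_num

/-! ### mirror image -/

/-- the mirror image of a frame -/
def FrW.mir (pm : ℕ → ℕ) (F : FrW) : FrW where
  U := mU F.U
  T := mT F.T
  z := cj F.z
  b := -F.b
  σ := F.σ
  s0 := fun i => F.s1 (pm i.1, i.2.rev)
  s1 := fun i => F.s0 (pm i.1, i.2.rev)

theorem P_mir (hκ : κ (pm x) = mC (κ x)) : (F.mir pm).P κ x = cj (F.P κ (pm x)) := by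
  show hp (cj F.z) (-F.b) (κ x) = cj (hp F.z F.b (κ (pm x)))
  rw [hp_mir, hκ]

/-- its direction -/
def mj (kd j k : ℕ) : ℕ :=
  if kd = 0 ∨ kd = 1 then (18 - j) % 12 else if kd = 9 ∨ kd = 11 then (12 - j) % 12 else
  if kd = 12 ∧ k ≠ 5 then (8 - j) % 6 else j

/-- its zone -/
def mz (kd k : ℕ) : ℕ := if kd = 0 ∨ kd = 1 then 4 - k else if kd = 9 then (k + 2) % 4 else
  if kd = 11 then (if k < 4 then (k + 2) % 4 else if k < 6 then 9 - k else 13 - k) else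
  if kd = 12 then (if k = 3 then 4 else if k = 4 then 3 else k) else k

theorem lt_mir {sd : ℕ} (hj : j % 2 = 0) (hj2 : j < 12) (hs : sd < 2) :
    (F.mir pm).lt x j sd = F.lt (pm x) ((12 - j) % 12) (1 - sd) := by
  unfold FrW.lt
  have e3 : (F.mir pm).s0 (x, f6 (j / 2)) = F.s1 (pm x, f6 ((12 - j) % 12 / 2 + 5)) := by
    show F.s1 (pm x, (f6 (j / 2)).rev) = _
    rw [f6_rev (j / 2) ((12 - j) % 12 / 2 + 5) (by omega)]
  have e4 : (F.mir pm).s1 (x, f6 (j / 2 + 5)) = F.s0 (pm x, f6 ((12 - j) % 12 / 2)) := by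
    show F.s0 (pm x, (f6 (j / 2 + 5)).rev) = _
    rw [f6_rev (j / 2 + 5) ((12 - j) % 12 / 2) (by omega)]
  rw [e3, e4]
  interval_cases sd <;> norm_num

theorem pal_mir (y : ℂ) : Pal (mU F.U) (cj y) = Pal F.U y := by
  show Pal (fun i => cj ⁻¹' F.U i) (cj y) = _
  rw [pal_isom, cj_cj]

theorem pkS_mir (y : ℂ) (p : Set (Fin 6) × Set (Fin 6)) : pkS (mU F.U) (mT F.T) (cj y) p = pkS F.U F.T y p := by
  unfold pkS
  rw [pal_mir]
  show pick p.1 p.2 (Pal F.U y) (F.T (cj (cj y))) = _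
  rw [cj_cj]

/-- **the atoms of the mirror image** -/
theorem tva_mir (hκ : κ (pm x) = mC (κ x)) (hv : Va G kd x j k q) :
    tva κ (F.mir pm) kd x j k q ↔ tva κ F kd (pm x) (mj kd j k) (mz kd k) q := by
  have eP := P_mir (F := F) hκ
  have ec : co (F.mir pm).σ q = co F.σ q := rfl
  have eT : (F.mir pm).T = mT F.T := rfl
  have eU : (F.mir pm).U = mU F.U := rfl
  have eb : (F.mir pm).b = -F.b := rfl
  have eQ : mT F.T (cj (F.P κ (pm x))) = F.T (F.P κ (pm x)) := by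
    show F.T (cj (cj _)) = _
    rw [cj_cj]
  unfold tva mj mz
  rw [eP, ec, eT, eU, eb]
  rcases hv.kind with ⟨h0, h1, h2, h3, h4⟩ | ⟨h0, h1, h2⟩ | ⟨rfl, h1, h2, h3⟩ | ⟨rfl, h1, h2, h3⟩ | ⟨rfl, h0, h1⟩ |
    ⟨rfl, rfl, h1⟩
  · have e1 : -(-F.b + ((j / 2 : ℕ) : ℝ)) - 3 + 6 * ((2 : ℤ) : ℝ) = F.b + ((9 - j / 2 : ℕ) : ℝ) := by
      rw [Nat.cast_sub (by omega)]; push_cast; ring
    rcases h0 with rfl | rfl
    · norm_num
      rw [show (18 - j) % 12 / 2 = (9 - j / 2) % 6 by omega, zc_nat, sq_mir, zc_mir h3 h4,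
        ← zc_int (β := -(-F.b + ((j / 2 : ℕ) : ℝ)) - 3) 2, e1]
    · norm_num
      rw [show (18 - j) % 12 / 2 = (9 - j / 2) % 6 by omega, zc_nat, u_mir, zc_mir h3 h4,
        ← zc_int (β := -(-F.b + ((j / 2 : ℕ) : ℝ)) - 3) 2, e1]
  · rcases h0 with rfl | rfl | rfl
    · norm_num
      rw [eQ]
    · norm_num
      rw [pal_mir]
    · norm_num
      show cj (F.P κ (pm x)) ∈ XX (fun i => cj ⁻¹' F.U i) ↔ _
      rw [xx_isom, cj_cj]
  · norm_num
    rw [lt_mir h1 h2 (by omega), pkS_mir]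
    interval_cases k <;> norm_num
  · norm_num
    interval_cases k <;> norm_num <;> rw [lt_mir h1 h2 (by omega)] <;> norm_num
    · rw [eQ]; exact fun _ => Iff.rfl
    · rw [eQ]; exact fun _ => Iff.rfl
  · rcases h0 with rfl | rfl | rfl
    · norm_num
      rw [se_nat, se_mir, ← se_int (α := -(-F.b + (j : ℝ)) - 4) 2]
      have e1 : -(-F.b + (j : ℝ)) - 4 + 6 * ((2 : ℤ) : ℝ) = F.b + ((8 - j : ℕ) : ℝ) := by
        rw [Nat.cast_sub (by omega)]; push_cast; ring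
      rw [e1]
    · norm_num
      rw [accL_nat, accR_mir, ← accL_int (α := -(-F.b + (j : ℝ)) - 3) 2]
      have e1 : -(-F.b + (j : ℝ)) - 3 + 6 * ((2 : ℤ) : ℝ) = F.b + ((8 - j : ℕ) : ℝ) + 1 := by
        rw [Nat.cast_sub (by omega)]; push_cast; ring
      rw [e1]
    · norm_num
      rw [accR_nat, accL_mir, ← accR_int (α := -(-F.b + (j : ℝ) + 1) - 3) 2]
      have e1 : -(-F.b + (j : ℝ) + 1) - 3 + 6 * ((2 : ℤ) : ℝ) = F.b + ((8 - j : ℕ) : ℝ) := by
        rw [Nat.cast_sub (by omega)]; push_cast; ring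
      rw [e1]
  · norm_num
    rw [eQ]

/-! ### colours -/

/-- other numbers of the colours -/
def FrW.col (π : Equiv.Perm (Fin 6)) (F : FrW) : FrW := { F with σ := F.σ * π }

/-- **the atoms after a permutation of the colours** -/
theorem tva_col (π : Equiv.Perm (Fin 6)) : tva κ (F.col π) kd x j k q ↔ tva κ F kd x j k (pn π q) := by
  have ec : co (F.col π).σ q = co F.σ (pn π q) := co_pn F.σ π q
  have eP : (F.col π).P κ x = F.P κ x := rfl
  have eT : (F.col π).T = F.T := rfl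
  have eU : (F.col π).U = F.U := rfl
  have eb : (F.col π).b = F.b := rfl
  have e0 : ∀ a c d, (F.col π).lt a c d = F.lt a c d := fun _ _ _ => rfl
  unfold tva
  simp only [ec, eP, eT, eU, eb, e0]

end

end Vale.Agent.P032.H529.W
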