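import Vale.Agent.P032.H529.W.FrB
import Vale.Agent.P032.H61.SymC

/-!
# P032: valid wild frames, dead patterns

* `FOk κ cx F` : the frame `F` is valid (centres number `cx c`), `FOk.rot`, `FOk.mir`, `FOk.col`,
* `tv`, `lf` : atoms and literals as numbers,
* `Dead C P` : no frame with `C F` satisfies all literals of `P`; `Dead.of_map`.
-/

open Set Filter Topology Metric

noncomputable section

namespace Vale.Agent.P032.H529.W

open Vale.Agent.P032.Six Vale.Agent.P032.Words Vale.Agent.P032.S5.H767 Vale.Agent.P032.H892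
  Vale.Agent.P032.H913 Vale.Agent.P032.H357 Vale.Agent.P032.H556 Vale.Agent.P032.H515
open Vale.Agent.P032.H61 (hp rC mC mU mT DO RSt LSt fin_add_one fin_rev pn lm f6)
open Vale.Agent.P032.H357.MK (co no co_no co_surj no_co co_inj of6 ct6)
open Vale.Agent.P032.H820.K (a0 a1 a2 a3 a4 En dec)

/-! ### valid frames -/

/-- the centres -/
def FrW.Z {B : Type} (κ : ℕ → ℤ × ℤ) (cx : B → ℕ) (F : FrW) (c : B) : ℂ := F.P κ (cx c)

/-- the states at the centres -/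
def rS {B : Type} (cx : B → ℕ) (s : Ss) : B × Fin 6 → Set (Fin 6) × Set (Fin 6) :=
  fun i => s (cx i.1, i.2)

/-- the frame is valid -/
structure FOk {B : Type} (κ : ℕ → ℤ × ℤ) (cx : B → ℕ) (F : FrW) : Prop where
  irr : Irr F.U F.T
  r0 : rS cx F.s0 ∈ RSt DO (IPs F.U F.T (ct6 (F.Z κ cx)) of6) F.b
  r1 : rS cx F.s1 ∈ LSt DO (IPs F.U F.T (ct6 (F.Z κ cx)) of6) (F.b + 1)

section
variable {B : Type} {κ : ℕ → ℤ × ℤ} {cx : B → ℕ} {pr pm : ℕ → ℕ} {F : FrW}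

theorem FOk.rot (h : FOk κ cx F) (hκ : ∀ c, κ (pr (cx c)) = rC (κ (cx c)))
    (hc : ∀ c, ∃ c', cx c' = pr (cx c)) : FOk κ cx (F.rot pr) := by
  choose f hf using hc
  have hX : ∀ i : B × Fin 6, ct6 ((F.rot pr).Z κ cx) i = ct6 (F.Z κ cx) (f i.1, i.2 + 1) := by
    intro i
    show (F.rot pr).P κ (cx i.1) = F.P κ (cx (f i.1))
    rw [P_rot (hκ i.1), hf]
  have ho : ∀ i : B × Fin 6, ∃ k : ℤ, of6 i + 1 = of6 (f i.1, i.2 + 1) + 6 * k := fun i => fin_add_one i.2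
  refine ⟨h.irr, ?_, ?_⟩
  · have h1 := rst_trW (fun i : B × Fin 6 => (f i.1, i.2 + 1)) hX ho h.r0
    have e : (fun i : B × Fin 6 => rS cx F.s0 (f i.1, i.2 + 1)) = rS cx (F.rot pr).s0 := by
      funext i
      show F.s0 (cx (f i.1), i.2 + 1) = F.s0 (pr (cx i.1), i.2 + 1)
      rw [hf]
    rw [e] at h1
    exact h1
  · have h1 := lst_trW (fun i : B × Fin 6 => (f i.1, i.2 + 1)) hX ho h.r1
    have e : (fun i : B × Fin 6 => rS cx F.s1 (f i.1, i.2 + 1)) = rS cx (F.rot pr).s1 := by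
      funext i
      show F.s1 (cx (f i.1), i.2 + 1) = F.s1 (pr (cx i.1), i.2 + 1)
      rw [hf]
    rw [e] at h1
    exact h1

theorem FOk.mir (h : FOk κ cx F) (hκ : ∀ c, κ (pm (cx c)) = mC (κ (cx c)))
    (hc : ∀ c, ∃ c', cx c' = pm (cx c)) : FOk κ cx (F.mir pm) := by
  choose f hf using hc
  have hX : ∀ i : B × Fin 6, ct6 ((F.mir pm).Z κ cx) i = cj (ct6 (F.Z κ cx) (f i.1, i.2.rev)) := by
    intro i
    show (F.mir pm).P κ (cx i.1) = cj (F.P κ (cx (f i.1)))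
    rw [P_mir (hκ i.1), hf]
  refine ⟨irr_isom cj h.irr, ?_, ?_⟩
  · -- times: `-b + m` is the mirror image of `b + 1 + (5 - m) - 6`
    have h1 := lst_trW (X' := ct6 (F.Z κ cx)) (o' := fun i => of6 i + 1) (d := -1) (fun i : B × Fin 6 => i)
      (fun _ => rfl) (fun i => ⟨0, by push_cast; ring⟩) h.r1
    rw [show F.b + 1 + -1 = F.b by ring] at h1
    have h2 := rst_mirW (X' := ct6 ((F.mir pm).Z κ cx)) (o' := of6) (fun i : B × Fin 6 => (f i.1, i.2.rev)) hX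
      (fun i => ⟨1, by
        show (i.2.val : ℝ) = -((i.2.rev.val : ℝ) + 1) + 6 * ((1 : ℤ) : ℝ)
        rw [fin_rev i.2]; push_cast; ring⟩) h1
    have e : (fun i : B × Fin 6 => (fun i => rS cx F.s1 i) (f i.1, i.2.rev)) = rS cx (F.mir pm).s0 := by
      funext i
      show F.s1 (cx (f i.1), i.2.rev) = F.s1 (pm (cx i.1), i.2.rev)
      rw [hf]
    rw [e] at h2
    exact h2
  · have h1 := rst_trW (X' := ct6 (F.Z κ cx)) (o' := fun i => of6 i + 1) (d := -1) (fun i : B × Fin 6 => i)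
      (fun _ => rfl) (fun i => ⟨0, by push_cast; ring⟩) h.r0
    have h2 := lst_mirW (X' := ct6 ((F.mir pm).Z κ cx)) (o' := of6) (fun i : B × Fin 6 => (f i.1, i.2.rev)) hX
      (fun i => ⟨1, by
        show (i.2.val : ℝ) = -((i.2.rev.val : ℝ) + 1) + 6 * ((1 : ℤ) : ℝ)
        rw [fin_rev i.2]; push_cast; ring⟩) h1
    rw [show -(F.b + -1) = -F.b + 1 by ring] at h2
    have e : (fun i : B × Fin 6 => (fun i => rS cx F.s0 i) (f i.1, i.2.rev)) = rS cx (F.mir pm).s1 := by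
      funext i
      show F.s0 (cx (f i.1), i.2.rev) = F.s0 (pm (cx i.1), i.2.rev)
      rw [hf]
    rw [e] at h2
    exact h2

theorem FOk.col (h : FOk κ cx F) (π : Equiv.Perm (Fin 6)) : FOk κ cx (F.col π) := ⟨h.irr, h.r0, h.r1⟩

end

/-! ### literals -/

/-- the atoms of class 0 as numbers -/
def tv (κ : ℕ → ℤ × ℤ) (F : FrW) (n : ℕ) : Prop := tva κ F (a0 n) (a1 n) (a2 n) (a3 n) (a4 n)

/-- the literal `l` in a frame -/
def lf (κ : ℕ → ℤ × ℤ) (F : FrW) (l : ℕ) : Prop := if l % 2 = 0 then tv κ F (l / 2) else ¬ tv κ F (l / 2)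

/-- **the pattern `P` does not occur** -/
def Dead (κ : ℕ → ℤ × ℤ) (C : FrW → Prop) (P : List ℕ) : Prop := ∀ F, C F → ¬ ∀ l ∈ P, lf κ F l

theorem lf_lm {κ : ℕ → ℤ × ℤ} {F F' : FrW} {f : ℕ → ℕ} {l : ℕ} (h : tv κ F' (l / 2) ↔ tv κ F (f (l / 2))) :
    lf κ F' l ↔ lf κ F (lm f l) := by
  have h1 : lm f l % 2 = l % 2 := by unfold lm; omega
  have h2 : lm f l / 2 = f (l / 2) := by unfold lm; omega
  unfold lf
  rw [h1, h2, h]

theorem Dead.of_map {κ : ℕ → ℤ × ℤ} {C : FrW → Prop} {P : List ℕ} {f : ℕ → ℕ} {g : FrW → FrW} (hP : Dead κ C P)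
    (hC : ∀ F, C F → C (g F)) (h : ∀ F, C F → ∀ l ∈ P, (tv κ (g F) (l / 2) ↔ tv κ F (f (l / 2)))) :
    Dead κ C (P.map (lm f)) := by
  intro F hF hall
  refine hP (g F) (hC F hF) fun l hl => (lf_lm (h F hF l hl)).2 (hall _ (List.mem_map_of_mem hl))

end Vale.Agent.P032.H529.W
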