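import Vale.Agent.P032.H529.W.FrC
import Vale.Agent.P032.H61.SymD
import Vale.Agent.P032.H993.MkM
import Vale.Agent.P032.H240.W.Gen3

/-!
# P032: the atoms of the wild frames are the atoms of the wild germ model

* `Wa` : valid atoms (letters only at centres),
* `Rep NP NW TC F M` : the atoms of class 0 of the model `M` are those of the frame `F`; `Rep.av`,
* `rep_mk` : the model `mkMdW` of four set states of the frame.
-/

open Set Filter Topology Metric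

noncomputable section

namespace Vale.Agent.P032.H529.W

open Vale.Agent.P032.Six Vale.Agent.P032.Words Vale.Agent.P032.S5.H767 Vale.Agent.P032.H892
  Vale.Agent.P032.H913 Vale.Agent.P032.H357 Vale.Agent.P032.H556 Vale.Agent.P032.H515
open Vale.Agent.P032.H61 (hp rC mC mU mT DO RSt LSt fin_add_one fin_rev pn pn_lt lm f6 cmp Zc Sh Se cl_zc shD_sh kap cxv Gp Ce
  yc_P t2 t2_even t2_odd tick_t2 nX nO nio_iff)
open Vale.Agent.P032.H357.MK (co no co_no co_surj no_co no_lt co_inj of6 ct6 Cn Tb Yt Yc cs_iff fx0 cf fc Zf Yw yt_yc tick0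
  t2_zero nio cf)
open Vale.Agent.P032.H820.K (a0 a1 a2 a3 a4 En dec nbf)
open Vale.Agent.P032.H240.W (MdW)
open Vale.Agent.P032.H993.MkW (mkMdW LW lw_iff JC wn wn_eq Tab ncard_nums nums nums_finite)

/-! ### valid atoms -/

/-- valid atoms of class 0; letters only at centres -/
structure Wa (G Ce : ℕ → Prop) (kd x j k q : ℕ) : Prop where
  va : Va G kd x j k q
  cen : kd = 9 ∨ kd = 11 → Ce x

section
variable {G Ce : ℕ → Prop} {pr pm : ℕ → ℕ} {kd x j k q : ℕ}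

theorem Wa.rot (h : Wa G Ce kd x j k q) (hG : G (pr x)) (hC : Ce x → Ce (pr x)) {r : ℕ} :
    Wa G Ce kd (pr x) (rj kd j k r) k q := by
  refine ⟨⟨?_, hG, h.va.col, h.va.six⟩, fun e => hC (h.cen e)⟩
  unfold rj
  rcases h.va.kind with ⟨h0, h1, h2, h3, h4⟩ | ⟨h0, h1, h2⟩ | ⟨rfl, h1, h2, h3⟩ | ⟨rfl, h1, h2, h3⟩ | ⟨rfl, h0, h1⟩ |
    ⟨rfl, rfl, h1⟩
  · left
    rw [if_pos (by omega)]
    exact ⟨h0, by omega, by omega, h3, h4⟩
  · right; left
    rw [if_neg (by omega), if_neg (by omega)]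
    exact ⟨h0, h1, h2⟩
  · right; right; left
    rw [if_pos (by omega)]
    exact ⟨rfl, by omega, by omega, h3⟩
  · right; right; right; left
    rw [if_pos (by omega)]
    exact ⟨rfl, by omega, by omega, h3⟩
  · right; right; right; right; left
    rw [if_neg (by omega), if_pos (by omega)]
    exact ⟨rfl, h0, by omega⟩
  · right; right; right; right; right
    rw [if_neg (by omega), if_neg (by omega)]
    exact ⟨rfl, rfl, h1⟩

theorem Wa.mir (h : Wa G Ce kd x j k q) (hG : G (pm x)) (hC : Ce x → Ce (pm x)) :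
    Wa G Ce kd (pm x) (mj kd j k) (mz kd k) q := by
  refine ⟨⟨?_, hG, h.va.col, fun e => h.va.six ?_⟩, fun e => hC (h.cen e)⟩
  · unfold mj mz
    rcases h.va.kind with ⟨h0, h1, h2, h3, h4⟩ | ⟨h0, h1, h2⟩ | ⟨rfl, h1, h2, h3⟩ | ⟨rfl, h1, h2, h3⟩ | ⟨rfl, h0, h1⟩ |
      ⟨rfl, rfl, h1⟩
    · left
      rw [if_pos h0, if_pos h0]
      omega
    · right; left
      rcases h0 with rfl | rfl | rfl <;> norm_num <;> exact ⟨h1, h2⟩
    · right; right; left
      norm_num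
      omega
    · right; right; right; left
      norm_num
      refine ⟨by omega, by omega, ?_⟩
      split_ifs <;> omega
    · right; right; right; right; left
      rcases h0 with rfl | rfl | rfl <;> norm_num <;> omega
    · right; right; right; right; right
      norm_num
      exact h1
  · rcases e with e | ⟨e, e2⟩
    · exact Or.inl e
    · refine Or.inr ⟨e, ?_⟩
      subst e
      unfold mz at e2
      norm_num at e2
      split_ifs at e2 <;> omega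

/-- colours of an atom after a permutation -/
def qc (f : ℕ → ℕ) (kd k q : ℕ) : ℕ := if kd = 6 ∨ (kd = 12 ∧ k = 5) then q else f q

theorem Wa.col (h : Wa G Ce kd x j k q) (π : Equiv.Perm (Fin 6)) : Wa G Ce kd x j k (qc (pn π) kd k q) := by
  refine ⟨⟨h.va.kind, h.va.pt, ?_, fun e => ?_⟩, h.cen⟩
  · unfold qc
    split_ifs
    · exact h.va.col
    · exact pn_lt π q
  · unfold qc
    rw [if_pos e]
    exact h.va.six e

theorem tva_col' {κ : ℕ → ℤ × ℤ} {F : FrW} (π : Equiv.Perm (Fin 6)) :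
    tva κ (F.col π) kd x j k q ↔ tva κ F kd x j k (qc (pn π) kd k q) := by
  rw [tva_col]
  unfold qc
  split_ifs with h
  · rcases h with rfl | ⟨rfl, rfl⟩
    · unfold tva
      norm_num
    · unfold tva
      norm_num
  · exact Iff.rfl

end

/-! ### the class 0 atoms of a model -/

section
variable {NP NW TB TC : ℕ} {nb : ℕ → ℕ → ℕ} {F : FrW} {M : MdW 2 NP NW nb}

/-- **the atoms of class 0 of `M` are those of the frame `F`** -/
structure Rep (NP NW TC : ℕ) (F : FrW) {nb : ℕ → ℕ → ℕ} (M : MdW 2 NP NW nb) : Prop where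
  v : ∀ {x j k q}, Gp NP TC x → j % 2 = 0 → 1 ≤ k → k ≤ 3 →
    (M.V k x j q ↔ Zc (Sq F.T (co F.σ q)) (F.P (kap TC) x) (F.b + ((j / 2 : ℕ) : ℝ)) k)
  pv : ∀ {x j k q}, Gp NP TC x → j % 2 = 0 → 1 ≤ k → k ≤ 3 →
    (M.PV k x j q ↔ Zc (F.U (co F.σ q)) (F.P (kap TC) x) (F.b + ((j / 2 : ℕ) : ℝ)) k)
  t : ∀ {x q}, Gp NP TC x → (M.T x q ↔ co F.σ q ∈ F.T (F.P (kap TC) x))
  p : ∀ {x q}, Gp NP TC x → (M.P x q ↔ co F.σ q ∈ Pal F.U (F.P (kap TC) x))
  x : ∀ {x}, Gp NP TC x → (M.X x ↔ F.P (kap TC) x ∈ XX F.U)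
  w : ∀ {x j sd io q}, Ce NW TC x → j % 2 = 0 → sd < 2 → io < 2 → q < 6 →
    (M.W x j sd io = q ↔ cmp io (pkS F.U F.T (F.P (kap TC) x) (F.lt x j sd)) = co F.σ q)
  lt : ∀ {x j sd io q}, Ce NW TC x → j % 2 = 0 → sd < 2 → io < 2 →
    (M.LT x j sd io q ↔ co F.σ q ∈ cms io (F.lt x j sd))
  s : ∀ {x m q}, Gp NP TC x → m < 6 → (M.S60 x m q ↔ Se F.T (F.P (kap TC) x) (co F.σ q) (F.b + m))
  ar : ∀ {x m q}, Gp NP TC x → m < 6 → (M.AR x m q ↔ AccR (Sh F.T (F.P (kap TC) x) (co F.σ q)) (F.b + m))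
  al : ∀ {x m q}, Gp NP TC x → m < 6 → (M.AL x m q ↔ AccL (Sh F.T (F.P (kap TC) x) (co F.σ q)) (F.b + m + 1))

theorem Rep.fn (h : Rep NP NW TC F M) {x n : ℕ} (hx : Gp NP TC x) :
    M.Fn x n ↔ n ≤ (F.T (F.P (kap TC) x)).ncard := by
  classical
  rw [← ncard_nums (σ := F.σ)]
  have e : nums F.σ (F.T (F.P (kap TC) x)) = {q | q < 6 ∧ M.T x q} := by
    ext q
    show (q < 6 ∧ co F.σ q ∈ _) ↔ (q < 6 ∧ M.T x q)
    rw [h.t hx]
  rw [e]
  have hf : {q | q < 6 ∧ M.T x q}.Finite := (Set.finite_lt_nat 6).subset fun _ hq => hq.1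
  constructor
  · rintro ⟨S, h1, h2⟩
    have h3 : (S : Set ℕ) ⊆ {q | q < 6 ∧ M.T x q} := fun q hq => h2 q hq
    have h4 := Set.ncard_le_ncard h3 hf
    rw [Set.ncard_coe_finset] at h4
    exact h1.trans h4
  · intro h1
    refine ⟨hf.toFinset, ?_, fun q hq => ?_⟩
    · rw [← Set.ncard_eq_toFinset_card _ hf]; exact h1
    · exact (Set.Finite.mem_toFinset hf).1 hq

/-- **the atoms of class 0 of a model are those of the frame** -/
theorem Rep.av (h : Rep NP NW TC F M) {l : ℕ}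
    (hv : Wa (Gp NP TC) (Ce NW TC) (a0 l) (a1 l) (a2 l) (a3 l) (a4 l)) : M.bv l ↔ tv (kap TC) F l := by
  unfold tv tva MdW.bv
  generalize a0 l = kd at hv
  generalize a1 l = x at hv
  generalize a2 l = j at hv
  generalize a3 l = k at hv
  generalize a4 l = q at hv
  have hp := hv.va.pt
  rcases hv.va.kind with ⟨h0, h1, h2, h3, h4⟩ | ⟨h0, h1, h2⟩ | ⟨rfl, h1, h2, h3⟩ | ⟨rfl, h1, h2, h3⟩ | ⟨rfl, h0, h1⟩ |
    ⟨rfl, rfl, h1⟩
  · rcases h0 with rfl | rfl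
    · norm_num
      exact h.v hp h1 h3 h4
    · norm_num
      exact h.pv hp h1 h3 h4
  · subst h1 h2
    rcases h0 with rfl | rfl | rfl
    · norm_num
      exact h.t hp
    · norm_num
      exact h.p hp
    · norm_num
      exact h.x hp
  · norm_num
    exact h.w (hv.cen (Or.inl rfl)) h1 (by omega) (by omega) hv.va.col
  · have hc := hv.cen (Or.inr rfl)
    norm_num
    split_ifs with k1 k2
    · exact h.lt hc h1 (by omega) (by omega)
    · unfold MdW.LU bo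
      rw [h.lt hc h1 (by omega) (by omega), h.lt hc h1 (by omega) (by omega)]
      exact Iff.rfl
    · unfold MdW.LE MdW.LU bo
      rw [h.lt hc h1 (by omega) (by omega), h.lt hc h1 (by omega) (by omega), h.t hp]
      exact Iff.rfl
  · rcases h0 with rfl | rfl | rfl
    · norm_num
      exact h.s hp h1
    · norm_num
      exact h.ar hp h1
    · norm_num
      exact h.al hp h1
  · norm_num
    exact h.fn hp

end

/-! ### the model of four states -/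

section
variable {NP NW TB TC : ℕ} {U : Fin 6 → Set ℂ} {T : ℂ → Set (Fin 6)}

/-- the class 0 letters of the families are the set states `s0`, `s1` of the fixed centres and their chosen letters -/
def L0 (U : Fin 6 → Set ℂ) (T : ℂ → Set (Fin 6)) (Z : Cn NW TC → ℂ) (s0 s1 : Cn NW TC × Fin 6 → Set (Fin 6) × Set (Fin 6))
    (W : ℕ → Fin NW → ℕ → ℕ → ℕ → Set (Fin 6)) (w : ℕ → Fin NW → ℕ → ℕ → ℕ → Fin 6) : Prop :=
  ∀ (c : Cn NW TC) (m : ℕ),
    ((W 0 (fc c) (2 * m) 1 0 = (s0 (c, f6 m)).1 ∧ W 0 (fc c) (2 * m) 1 1 = (s0 (c, f6 m)).2) ∧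
      (W 0 (fc c) (2 * m) 0 0 = (s1 (c, f6 (m + 5))).1 ∧ W 0 (fc c) (2 * m) 0 1 = (s1 (c, f6 (m + 5))).2)) ∧
    (w 0 (fc c) (2 * m) 1 0 = (pkS U T (Z c) (s0 (c, f6 m))).1 ∧
      w 0 (fc c) (2 * m) 1 1 = (pkS U T (Z c) (s0 (c, f6 m))).2) ∧
    (w 0 (fc c) (2 * m) 0 0 = (pkS U T (Z c) (s1 (c, f6 (m + 5)))).1 ∧
      w 0 (fc c) (2 * m) 0 1 = (pkS U T (Z c) (s1 (c, f6 (m + 5)))).2)

variable {F : FrW} {u : ℝ}

/-- **the model of four set states of the frame** -/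
theorem rep_mk (h : Irr F.U F.T) (hu : u ∈ Ioo F.b (F.b + 1)) (hK : 6 * 2 ≤ 256) (hNP : NP ≤ 4096) (hNW : NW ≤ NP)
    (hY : Tab 2 (t2 F.b u) NP (nbf 2 TB) (Yt (t2 F.b u) 2 TC F.z))
    {W : ℕ → Fin NW → ℕ → ℕ → ℕ → Set (Fin 6)} {w : ℕ → Fin NW → ℕ → ℕ → ℕ → Fin 6}
    (D : ∀ r, Sw F.U F.T 2 (t2 F.b u) (fun j : Fin NW => Yt (t2 F.b u) 2 TC F.z j.val) (W r) (w r))
    {J : ℕ → ℕ → ℕ → ℕ} (hJ : JC F.U F.T 2 (t2 F.b u) F.σ NP (nbf 2 TB) (Yt (t2 F.b u) 2 TC F.z) J)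
    (B : ℕ → ℕ → ℕ → ℕ → Prop)
    (hl : L0 F.U F.T (F.Z (kap TC) (cxv NW TC)) (rS (cxv NW TC) F.s0) (rS (cxv NW TC) F.s1) W w) :
    Rep NP NW TC F (mkMdW h (tick_t2 hu) F.σ hK hNP hNW (Yt (t2 F.b u) 2 TC F.z) hY D hJ B) := by
  have eP : ∀ {x}, Gp NP TC x → Yt (t2 F.b u) 2 TC F.z x = F.P (kap TC) x := fun {x} hx => by
    rw [yt_yc hx.2]
    exact yc_P (F := ⟨F.U, F.T, F.z, F.b, F.σ, fun _ => (0, 0), fun _ => (0, 0)⟩)
  have eC : ∀ {x}, (hx : Ce NW TC x) → F.Z (kap TC) (cxv NW TC) ⟨x, hx⟩ = F.P (kap TC) x := fun _ => rfl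
  have eW : ∀ {x j sd io}, (hx : Ce NW TC x) → j % 2 = 0 → sd < 2 → io < 2 →
      W (j % 2) ⟨x, hx.1⟩ j sd io = cms io (F.lt x j sd) := by
    intro x j sd io hx hj hs hio
    obtain ⟨⟨⟨h1, h2⟩, h3, h4⟩, -⟩ := hl ⟨x, hx⟩ (j / 2)
    have e : 2 * (j / 2) = j := by omega
    rw [e] at h1 h2 h3 h4
    rw [hj]
    unfold cms FrW.lt
    interval_cases sd <;> interval_cases io
    · norm_num; exact h3
    · norm_num; exact h4
    · norm_num; exact h1
    · norm_num; exact h2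
  have ew : ∀ {x j sd io}, (hx : Ce NW TC x) → j % 2 = 0 → sd < 2 → io < 2 →
      w (j % 2) ⟨x, hx.1⟩ j sd io = cmp io (pkS F.U F.T (F.P (kap TC) x) (F.lt x j sd)) := by
    intro x j sd io hx hj hs hio
    obtain ⟨-, ⟨h1, h2⟩, h3, h4⟩ := hl ⟨x, hx⟩ (j / 2)
    have e : 2 * (j / 2) = j := by omega
    rw [e] at h1 h2 h3 h4
    rw [hj]
    unfold H61.cmp FrW.lt
    interval_cases sd <;> interval_cases io
    · norm_num; exact h3
    · norm_num; exact h4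
    · norm_num; exact h1
    · norm_num; exact h2
  refine ⟨fun {x j k q} hx hj h1 h3 => ?_, fun {x j k q} hx hj h1 h3 => ?_, fun {x q} hx => ?_, fun {x q} hx => ?_,
    fun {x} hx => ?_, fun {x j sd io q} hx hj hs hio hq => ?_, fun {x j sd io q} hx hj hs hio => ?_,
    fun {x m q} hx hm => ?_, fun {x m q} hx hm => ?_, fun {x m q} hx hm => ?_⟩
  · show Cl (Sq F.T (co F.σ q)) (Yt (t2 F.b u) 2 TC F.z x) (t2 F.b u) k j ↔ _
    rw [cl_zc (by omega), eP hx]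
    have e : j = 2 * (j / 2) := by omega
    conv_lhs => rw [e, t2_even]
  · show Cl (F.U (co F.σ q)) (Yt (t2 F.b u) 2 TC F.z x) (t2 F.b u) k j ↔ _
    rw [cl_zc (by omega), eP hx]
    have e : j = 2 * (j / 2) := by omega
    conv_lhs => rw [e, t2_even]
  · show co F.σ q ∈ F.T (Yt (t2 F.b u) 2 TC F.z x) ↔ _
    rw [eP hx]
  · show co F.σ q ∈ Pal F.U (Yt (t2 F.b u) 2 TC F.z x) ↔ _
    rw [eP hx]
  · show Yt (t2 F.b u) 2 TC F.z x ∈ XX F.U ↔ _
    rw [eP hx]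
  · show wn F.σ 2 NW w x j sd io = q ↔ _
    rw [wn_eq hx.1, ew hx hj hs hio]
    constructor
    · rintro rfl; exact (co_no F.σ _).symm
    · intro h; rw [h]; exact no_co F.σ hq
  · show LW F.σ 2 NW W io x j sd q ↔ _
    rw [lw_iff hx.1, eW hx hj hs hio]
  · refine (tick0 hu x m hm h F.z TC (co F.σ q)).trans ?_
    show (shD F.T (Yt (t2 F.b u) 2 TC F.z) x (co F.σ q) ∩ Ioo (F.b + m) (F.b + m + 1)).Nonempty ↔ _
    rw [shD_sh, eP hx]
    exact Iff.rfl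
  · show AccR (Sh F.T (Yt (t2 F.b u) 2 TC F.z x) (co F.σ q)) (t2 F.b u 0 + (m : ℕ)) ↔ _
    rw [t2_zero, eP hx]
  · show AccL (Sh F.T (Yt (t2 F.b u) 2 TC F.z x) (co F.σ q)) (t2 F.b u 0 + (m : ℕ) + 1) ↔ _
    rw [t2_zero, eP hx]

end

end Vale.Agent.P032.H529.W
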