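import Vale.Agent.P032.H529.W.FrE
import Vale.Agent.P032.H61.SymG

/-!
# P032: the wild master: images of dead patterns in the kernel

Wild twin of `H61/SymF.lean` and of the checks of `H61/SymG.lean`.

* `gB` : the image of an atom (for the kernel), `imC`, `eC` : the clause of an image, the clause of a code,
* `eC_ho`, `imT_ho` : they hold in every model which represents the frame (`Rep`), with all defined atoms (`vx`),
* `wnF`, `vlB`, `chT` : the checks of valid atoms, valid patterns, trees of patterns.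
-/

open Set Filter Topology Metric

noncomputable section

namespace Vale.Agent.P032.H529.W

open Vale.Agent.P032.Six Vale.Agent.P032.Words Vale.Agent.P032.S5.H767 Vale.Agent.P032.H892
  Vale.Agent.P032.H913 Vale.Agent.P032.H357 Vale.Agent.P032.H556 Vale.Agent.P032.H515
open Vale.Agent.P032.H61 (hp rC mC pn pn_lt lm f6 kap cxv Gp Ce Tabs map_lm_lm lm_div lm_mod ncl ptb gchk tabs_of_gchk
  cpf upk upk_map pk PTr isPm exists_pm uns eqLc eqLc_spec gA sel4)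
open Vale.Agent.P032.H357.MK (fx0 cf al al_spec nbeq alL alL_spec Tb)
open Vale.Agent.P032.H820.K (a0 a1 a2 a3 a4 En en_eq dec nbf lb lb_iff trv nthC)
open Vale.Agent.P032.H240.W (MdW vx lv Ho ho_trv ho_bif nthC_ho)

/-! ### images for the kernel -/

/-- `rj` for the kernel -/
def rjB (kd j k r : ℕ) : ℕ :=
  bif Nat.beq kd 0 || (Nat.beq kd 1 || (Nat.beq kd 9 || Nat.beq kd 11)) then Nat.mod (Nat.add j (Nat.mul 2 r)) 12 else
  bif Nat.beq kd 12 && !(Nat.beq k 5) then Nat.mod (Nat.add j r) 6 else j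

/-- `mj` for the kernel -/
def mjB (kd j k : ℕ) : ℕ :=
  bif Nat.beq kd 0 || Nat.beq kd 1 then Nat.mod (Nat.sub 18 j) 12 else
  bif Nat.beq kd 9 || Nat.beq kd 11 then Nat.mod (Nat.sub 12 j) 12 else
  bif Nat.beq kd 12 && !(Nat.beq k 5) then Nat.mod (Nat.sub 8 j) 6 else j

/-- `mz` for the kernel -/
def mzB (kd k : ℕ) : ℕ :=
  bif Nat.beq kd 0 || Nat.beq kd 1 then Nat.sub 4 k else
  bif Nat.beq kd 9 then Nat.mod (Nat.add k 2) 4 else
  bif Nat.beq kd 11 then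
    (bif lb k 4 then Nat.mod (Nat.add k 2) 4 else bif lb k 6 then Nat.sub 9 k else Nat.sub 13 k) else
  bif Nat.beq kd 12 then (bif Nat.beq k 3 then 4 else bif Nat.beq k 4 then 3 else k) else k

/-- `qc` for the kernel -/
def qB (cp kd k q : ℕ) : ℕ := bif Nat.beq kd 6 || (Nat.beq kd 12 && Nat.beq k 5) then q else cpf cp q

theorem rjB_eq (kd j k r : ℕ) : rjB kd j k r = rj kd j k r := by
  unfold rjB rj
  simp only [Bool.cond_eq_ite, Bool.or_eq_true, Bool.and_eq_true, Bool.not_eq_true', nbeq,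
    ← Bool.not_eq_true, ne_eq]
  rfl

theorem mjB_eq (kd j k : ℕ) : mjB kd j k = mj kd j k := by
  unfold mjB mj
  simp only [Bool.cond_eq_ite, Bool.or_eq_true, Bool.and_eq_true, Bool.not_eq_true', nbeq,
    ← Bool.not_eq_true, ne_eq]
  rfl

theorem mzB_eq (kd k : ℕ) : mzB kd k = mz kd k := by
  unfold mzB mz
  simp only [Bool.cond_eq_ite, Bool.or_eq_true, nbeq, lb_iff]
  rfl

theorem qB_eq (cp kd k q : ℕ) : qB cp kd k q = qc (cpf cp) kd k q := by
  unfold qB qc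
  simp only [Bool.cond_eq_ite, Bool.or_eq_true, Bool.and_eq_true, nbeq]

/-- the image of an atom given by its fields -/
def gF (TG cp g kd x j k q : ℕ) : ℕ := bif Nat.ble 6 g then
    En kd (ptb TG g x) (rjB kd (mjB kd j k) (mzB kd k) (Nat.sub g 6)) (mzB kd k) (qB cp kd k q) else
  En kd (ptb TG g x) (rjB kd j k g) k (qB cp kd k q)

/-- the image of an atom -/
def gB (TG cp g n : ℕ) : ℕ :=
  gF TG cp g (Nat.mod n 16) (Nat.mod (Nat.div n 16) 4096) (Nat.mod (Nat.div n 65536) 256)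
    (Nat.mod (Nat.div n 16777216) 8) (Nat.div n 134217728)

theorem qc_mz {G Ce : ℕ → Prop} {f : ℕ → ℕ} {kd x j k q r : ℕ} (h : Wa G Ce kd x j k q) :
    qc f kd (mz kd k) r = qc f kd k r := by
  unfold qc
  have e : (kd = 6 ∨ (kd = 12 ∧ mz kd k = 5)) ↔ (kd = 6 ∨ (kd = 12 ∧ k = 5)) := by
    refine or_congr Iff.rfl (and_congr_right fun e => ?_)
    subst e
    unfold mz
    norm_num
    split_ifs <;> omega
  rw [if_congr e rfl rfl]

theorem gB_eq {κ : ℕ → ℤ × ℤ} {G Ce : ℕ → Prop} {TG cp g n : ℕ} (t : Tabs κ G Ce (ptb TG)) (hg : g < 12)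
    (hn : Wn G Ce n) : gB TG cp g n = nc (cpf cp) (gn (ptb TG) g n) := by
  have e : gB TG cp g n = gF TG cp g (a0 n) (a1 n) (a2 n) (a3 n) (a4 n) := rfl
  rw [e]
  unfold gF
  simp only [Bool.cond_eq_ite, Nat.ble_eq, rjB_eq, mjB_eq, mzB_eq, qB_eq]
  by_cases h6 : 6 ≤ g
  · rw [if_pos h6]
    have h0 : Wa G Ce (a0 n) (ptb TG g (a1 n)) (mj (a0 n) (a2 n) (a3 n)) (mz (a0 n) (a3 n)) (a4 n) :=
      Wa.mir hn (t.good _ hn.va.pt g hg) fun hc => t.cen _ hc g hg
    have h1 : Wa G Ce (a0 n) (ptb TG g (a1 n)) (rj (a0 n) (mj (a0 n) (a2 n) (a3 n)) (mz (a0 n) (a3 n)) (g - 6))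
        (mz (a0 n) (a3 n)) (a4 n) := Wa.rot (pr := id) h0 h0.va.pt id
    obtain ⟨e0, e1, e2, e3, e4⟩ := wn_en t.lt h1
    have e5 : gn (ptb TG) g n = En (a0 n) (ptb TG g (a1 n))
        (rj (a0 n) (mj (a0 n) (a2 n) (a3 n)) (mz (a0 n) (a3 n)) (g - 6)) (mz (a0 n) (a3 n)) (a4 n) := by
      unfold gn; rw [if_neg (by omega)]
    unfold nc
    rw [e5, e0, e1, e2, e3, e4, qc_mz hn]
    rfl
  · rw [if_neg h6]
    have h1 : Wa G Ce (a0 n) (ptb TG g (a1 n)) (rj (a0 n) (a2 n) (a3 n) g) (a3 n) (a4 n) :=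
      Wa.rot hn (t.good _ hn.va.pt g hg) fun hc => t.cen _ hc g hg
    obtain ⟨e0, e1, e2, e3, e4⟩ := wn_en t.lt h1
    have e5 : gn (ptb TG) g n = En (a0 n) (ptb TG g (a1 n)) (rj (a0 n) (a2 n) (a3 n) g) (a3 n) (a4 n) := by
      unfold gn; rw [if_pos (by omega)]
    unfold nc
    rw [e5, e0, e1, e2, e3, e4]

/-! ### clauses of images -/

/-- the negated image of a literal -/
def gL (TG cp g l : ℕ) : ℕ := Nat.add (Nat.mul 2 (gB TG cp g (Nat.div l 2))) (Nat.sub 1 (Nat.mod l 2))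

/-- the clause of an image of a pattern -/
def imC (TG cp g x : ℕ) : List ℕ := upk (gL TG cp g) 64 x

theorem gL_eq (TG cp g l : ℕ) : gL TG cp g l = Nat.xor (lm (gB TG cp g) l) 1 := by
  have h1 : gL TG cp g l = 2 * gB TG cp g (l / 2) + (1 - l % 2) := rfl
  have h2 : lm (gB TG cp g) l = 2 * gB TG cp g (l / 2) + l % 2 := rfl
  rw [h1, h2]
  show _ = (2 * gB TG cp g (l / 2) + l % 2) ^^^ 1
  rcases Nat.mod_two_eq_zero_or_one l with h | h
  · rw [h, Nat.xor_one_of_even (by simp)]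
  · rw [h, Nat.xor_one_of_odd (by exact odd_two_mul_add_one _)]
    simp

/-- the clause of a code -/
def eC (e : List (List ℕ)) (t : PTr) (PT NPM TG c : ℕ) : List ℕ :=
  bif Nat.beq (Nat.land c 1) 0 then nthC e (Nat.shiftRight c 1) else
  bif lb (Nat.land (Nat.shiftRight c 1) 15) 12 && lb (Nat.land (Nat.shiftRight c 5) 255) NPM then
    imC TG (Nat.land (Nat.shiftRight PT (Nat.mul 18 (Nat.land (Nat.shiftRight c 5) 255))) 262143)
      (Nat.land (Nat.shiftRight c 1) 15) (t.get (Nat.shiftRight c 13)) else trv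

/-- the clause of an image, code `g + 16 i + 4096 n` -/
def imT (G : ℕ → Bool) (t : PTr) (PT NPM TG c : ℕ) : List ℕ :=
  bif G (Nat.land c 15) && lb (Nat.land (Nat.shiftRight c 4) 255) NPM then
    imC TG (Nat.land (Nat.shiftRight PT (Nat.mul 18 (Nat.land (Nat.shiftRight c 4) 255))) 262143)
      (Nat.land c 15) (t.get (Nat.shiftRight c 12)) else trv

/-- base clauses (even numbers), units of a pattern (odd numbers) -/
def bsC (e : List (List ℕ)) (P : List ℕ) (c : ℕ) : List ℕ :=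
  bif Nat.beq (Nat.land c 1) 0 then nthC e (Nat.shiftRight c 1) else nthC (uns P) (Nat.shiftRight c 1)

/-- the clauses of a master: base clauses and units, images of the patterns of `t1` under the whole group, images of the
patterns of `t2` under the reflection which fixes `b` -/
def mE (e : List (List ℕ)) (P : List ℕ) (t1 t2 : PTr) (PT NPM PT' NPM' TG : ℕ) : ℕ → List ℕ :=
  sel4 (bsC e P) (imT gA t1 PT NPM TG) (fun _ => trv) (imT H61.gS t2 PT' NPM' TG)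

/-! ### literals and clauses in a model -/

theorem lv_xor {v : ℕ → Prop} {l : ℕ} : lv v (Nat.xor l 1) ↔ ¬ lv v l := by
  have e : Nat.xor l 1 = if l % 2 = 0 then l + 1 else l - 1 := by
    show l ^^^ 1 = _
    rcases Nat.even_or_odd l with h | h
    · rw [if_pos (Nat.even_iff.1 h), Nat.xor_one_of_even h]
    · rw [if_neg (by rw [Nat.odd_iff.1 h]; norm_num), Nat.xor_one_of_odd h]
  rw [e]
  unfold H240.W.lv
  split_ifs with h1 h2 h2
  · omega
  · rw [show (l + 1) / 2 = l / 2 by omega]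
  · rw [show (l - 1) / 2 = l / 2 by omega]; tauto
  · omega

theorem Wn.ne {G Ce : ℕ → Prop} {n : ℕ} (h : Wn G Ce n) : n % 16 ≠ 15 := by
  have e : a0 n = n % 16 := rfl
  have h1 := h.va.kind
  rw [e] at h1
  omega

section
variable {NP NW TC TG : ℕ} {nb : ℕ → ℕ → ℕ} {F : FrW} {M : MdW 2 NP NW nb} {C : FrW → Prop} {T : ℕ → List ℕ}

/-- the literals of class 0 in a model -/
theorem Rep.lv (hM : Rep NP NW TC F M) {l : ℕ} (hv : Wn (Gp NP TC) (Ce NW TC) (l / 2)) :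
    H240.W.lv M.bv l ↔ lf (kap TC) F l := by
  unfold H240.W.lv lf
  rw [hM.av hv]

theorem lv_vx {v : ℕ → Prop} {l : ℕ} (h : l / 2 % 16 ≠ 15) : H240.W.lv (vx v T) l ↔ H240.W.lv v l := by
  unfold H240.W.lv vx
  rw [if_neg h]

theorem Rep.lx (hM : Rep NP NW TC F M) {l : ℕ} (hv : Wn (Gp NP TC) (Ce NW TC) (l / 2)) :
    H240.W.lv (vx M.bv T) l ↔ lf (kap TC) F l := (lv_vx hv.ne).trans (hM.lv hv)

/-- **the clause of a dead pattern** -/
theorem ho_ncl (hM : Rep NP NW TC F M) {P : List ℕ} (hP : Dead (kap TC) C P) (hF : C F)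
    (hv : Vl (Gp NP TC) (Ce NW TC) P) : Ho (vx M.bv T) (ncl P) := by
  have h := hP F hF
  rw [not_forall] at h
  obtain ⟨l, h⟩ := h
  rw [Classical.not_imp] at h
  obtain ⟨hl, h⟩ := h
  refine ⟨Nat.xor l 1, List.mem_map_of_mem hl, lv_xor.2 ?_⟩
  rw [hM.lx (hv l hl)]
  exact h

/-- the permutations with the numbers below `NPM` in the table `PT` are allowed -/
def OkPT (C : FrW → Prop) (PT NPM : ℕ) : Prop := ∀ i < NPM, ∃ π : Equiv.Perm (Fin 6),
  (∀ q < 6, pn π q = cpf (Nat.land (Nat.shiftRight PT (Nat.mul 18 i)) 262143) q) ∧ ∀ F, C F → C (F.col π)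

/-- the class `C` is closed under the element `g` -/
def Cl1 (κ : ℕ → ℤ × ℤ) (tab : ℕ → ℕ → ℕ) (C : FrW → Prop) (G C1 : ℕ → Prop) (g : ℕ) : Prop :=
  ∀ P, Dead κ C P → Vl G C1 P → Dead κ C (P.map (lm (gn tab g)))

/-- the image of a packed pattern -/
theorem imC_ho (t : Tabs (kap TC) (Gp NP TC) (Ce NW TC) (ptb TG)) (hM : Rep NP NW TC F M) (hF : C F) {g : ℕ}
    (hg : g < 12) (hg1 : Cl1 (kap TC) (ptb TG) C (Gp NP TC) (Ce NW TC) g) {π : Equiv.Perm (Fin 6)} {cp : ℕ}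
    (h2 : ∀ q < 6, pn π q = cpf cp q) (h3 : ∀ F, C F → C (F.col π)) {x : ℕ} (h4 : Dead (kap TC) C (pk x))
    (h5 : Vl (Gp NP TC) (Ce NW TC) (pk x)) : Ho (vx M.bv T) (imC TG cp g x) := by
  have h7 := dead_col t (hg1 _ h4 h5) (h5.map fun n hn => wn_gn t hg hn) π h3
  rw [map_lm_lm] at h7
  have h6 := ho_ncl (T := T) hM h7 hF (vl_img t h5 hg π)
  have e1 : imC TG cp g x = ncl ((pk x).map (lm fun n => nc (pn π) (gn (ptb TG) g n))) := by
    unfold imC ncl pk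
    rw [upk_map (gL TG cp g), List.map_map]
    refine List.map_congr_left fun l hl => ?_
    show gL TG cp g l = Nat.xor (lm (fun n => nc (pn π) (gn (ptb TG) g n)) l) 1
    rw [gL_eq]
    congr 1
    unfold lm
    rw [gB_eq t hg (h5 l hl)]
    congr 2
    have hw := wn_gn t hg (h5 l hl)
    unfold nc
    congr 1
    unfold qc
    split_ifs
    · rfl
    · exact (h2 _ hw.va.col).symm
  rw [e1]; exact h6

theorem cl1_all (t : Tabs (kap TC) (Gp NP TC) (Ce NW TC) (ptb TG)) (hCr : ∀ F, C F → C (F.rot (ptb TG 1)))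
    (hCm : ∀ F, C F → C (F.mir (ptb TG 6))) {g : ℕ} (hg : g < 12) :
    Cl1 (kap TC) (ptb TG) C (Gp NP TC) (Ce NW TC) g := fun _ hP hv => dead_gn t hP hv hCr hCm hg

/-- closed under the reflection `6` only -/
theorem cl1_six (t : Tabs (kap TC) (Gp NP TC) (Ce NW TC) (ptb TG)) (hCm : ∀ F, C F → C (F.mir (ptb TG 6))) {g : ℕ}
    (hg : g = 0 ∨ g = 6) : Cl1 (kap TC) (ptb TG) C (Gp NP TC) (Ce NW TC) g := by
  intro P hP hv
  rcases hg with rfl | rfl
  · refine (hP.of_map (g := id) (fun F hF => hF) fun F hF l hl => ?_)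
    obtain ⟨e0, e1, e2, e3, e4⟩ := gn_zero t (hv l hl)
    unfold tv
    rw [e0, e1, e2, e3, e4]
    exact Iff.rfl
  · have h1 := dead_mir t hP hv hCm
    rw [map_congr' hv (fun n hn => (gn_six t hn).symm)] at h1
    exact h1

theorem gA_ok (t : Tabs (kap TC) (Gp NP TC) (Ce NW TC) (ptb TG)) (hCr : ∀ F, C F → C (F.rot (ptb TG 1)))
    (hCm : ∀ F, C F → C (F.mir (ptb TG 6))) (g : ℕ) (hg : gA g = true) :
    g < 12 ∧ Cl1 (kap TC) (ptb TG) C (Gp NP TC) (Ce NW TC) g := by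
  have h : g < 12 := lb_iff.1 hg
  exact ⟨h, cl1_all t hCr hCm h⟩

theorem gS_ok (t : Tabs (kap TC) (Gp NP TC) (Ce NW TC) (ptb TG)) (hCm : ∀ F, C F → C (F.mir (ptb TG 6))) (g : ℕ)
    (hg : H61.gS g = true) : g < 12 ∧ Cl1 (kap TC) (ptb TG) C (Gp NP TC) (Ce NW TC) g := by
  unfold H61.gS at hg
  rw [Bool.or_eq_true, nbeq, nbeq] at hg
  exact ⟨by omega, cl1_six t hCm hg⟩

/-- **clauses of images hold in every model** -/
theorem imT_ho (t : Tabs (kap TC) (Gp NP TC) (Ce NW TC) (ptb TG)) (hM : Rep NP NW TC F M) (hF : C F) {G : ℕ → Bool}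
    (hG : ∀ g, G g = true → g < 12 ∧ Cl1 (kap TC) (ptb TG) C (Gp NP TC) (Ce NW TC) g) {PT NPM : ℕ}
    (hPT : OkPT C PT NPM) {tr : PTr}
    (ht : tr.All fun p => Dead (kap TC) C (pk p) ∧ Vl (Gp NP TC) (Ce NW TC) (pk p)) (c : ℕ) :
    Ho (vx M.bv T) (imT G tr PT NPM TG c) := by
  unfold imT
  cases h1 : G (Nat.land c 15) && lb (Nat.land (Nat.shiftRight c 4) 255) NPM
  · rw [cond_false]; exact ho_trv
  · rw [cond_true]
    rw [Bool.and_eq_true, lb_iff] at h1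
    generalize Nat.land c 15 = g at h1
    generalize Nat.land (Nat.shiftRight c 4) 255 = i at h1
    obtain ⟨hg, hg1⟩ := hG g h1.1
    obtain ⟨π, h2, h3⟩ := hPT i h1.2
    generalize Nat.land (Nat.shiftRight PT (Nat.mul 18 i)) 262143 = cp at h2
    obtain ⟨h4, h5⟩ := PTr.get_all ht (Nat.shiftRight c 12)
    exact imC_ho t hM hF hg hg1 h2 h3 h4 h5

/-- **the clauses of the codes hold in every model** -/
theorem eC_ho (t : Tabs (kap TC) (Gp NP TC) (Ce NW TC) (ptb TG)) (hM : Rep NP NW TC F M) (hF : C F)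
    (hCr : ∀ F, C F → C (F.rot (ptb TG 1))) (hCm : ∀ F, C F → C (F.mir (ptb TG 6))) {PT NPM : ℕ} (hPT : OkPT C PT NPM)
    {tr : PTr} (ht : tr.All fun p => Dead (kap TC) C (pk p) ∧ Vl (Gp NP TC) (Ce NW TC) (pk p))
    {e : List (List ℕ)} (he : ∀ c ∈ e, Ho (vx M.bv T) c) (c : ℕ) : Ho (vx M.bv T) (eC e tr PT NPM TG c) := by
  unfold eC
  cases Nat.beq (Nat.land c 1) 0
  · rw [cond_false]
    cases h1 : lb (Nat.land (Nat.shiftRight c 1) 15) 12 && lb (Nat.land (Nat.shiftRight c 5) 255) NPM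
    · rw [cond_false]; exact ho_trv
    · rw [cond_true]
      rw [Bool.and_eq_true, lb_iff, lb_iff] at h1
      generalize Nat.land (Nat.shiftRight c 1) 15 = g at h1
      generalize Nat.land (Nat.shiftRight c 5) 255 = i at h1
      obtain ⟨π, h2, h3⟩ := hPT i h1.2
      generalize Nat.land (Nat.shiftRight PT (Nat.mul 18 i)) 262143 = cp at h2
      obtain ⟨h4, h5⟩ := PTr.get_all ht (Nat.shiftRight c 13)
      exact imC_ho t hM hF h1.1 (cl1_all t hCr hCm h1.1) h2 h3 h4 h5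
  · rw [cond_true]; exact nthC_ho he _

theorem bsC_ho {v : ℕ → Prop} {e : List (List ℕ)} {P : List ℕ} (he : ∀ c ∈ e, Ho v c)
    (hP : ∀ l ∈ P, H240.W.lv v l) (c : ℕ) : Ho v (bsC e P c) := by
  unfold bsC
  refine ho_bif (nthC_ho he _) (nthC_ho (fun c hc => ?_) _)
  obtain ⟨l, hl, rfl⟩ := List.mem_map.1 hc
  exact ⟨l, List.mem_singleton_self _, hP l hl⟩

theorem sel4_ho {v : ℕ → Prop} {f0 f1 f2 f3 : ℕ → List ℕ} (h0 : ∀ i, Ho v (f0 i)) (h1 : ∀ i, Ho v (f1 i))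
    (h2 : ∀ i, Ho v (f2 i)) (h3 : ∀ i, Ho v (f3 i)) (c : ℕ) : Ho v (sel4 f0 f1 f2 f3 c) :=
  ho_bif (ho_bif (h0 _) (h2 _)) (ho_bif (h1 _) (h3 _))

end

/-! ### checks of valid patterns and of trees -/

/-- check of a valid atom -/
def wnF (NP NW TC kd x j k q : ℕ) : Bool :=
  (lb x NP && fx0 TC x) && lb q 6 &&
  (bif Nat.beq kd 0 || Nat.beq kd 1 then (Nat.beq (Nat.mod j 2) 0 && lb j 12) && (Nat.ble 1 k && lb k 4) else
   bif Nat.beq kd 9 then (Nat.beq (Nat.mod j 2) 0 && lb j 12) && (lb k 4 && lb x NW) else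
   bif Nat.beq kd 11 then (Nat.beq (Nat.mod j 2) 0 && lb j 12) && (lb k 8 && lb x NW) else
   bif Nat.beq kd 6 then (Nat.beq j 0 && Nat.beq k 0) && Nat.beq q 0 else
   bif Nat.beq kd 4 || Nat.beq kd 5 then Nat.beq j 0 && Nat.beq k 0 else
   Nat.beq kd 12 && (bif Nat.beq k 5 then lb j 8 && Nat.beq q 0 else
     (Nat.beq k 0 || (Nat.beq k 3 || Nat.beq k 4)) && lb j 6))

theorem wa_of_F {NP NW TC kd x j k q : ℕ} (h : wnF NP NW TC kd x j k q = true) :
    Wa (Gp NP TC) (Ce NW TC) kd x j k q := by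
  unfold wnF at h
  rw [Bool.and_eq_true, Bool.and_eq_true, Bool.and_eq_true, lb_iff, lb_iff] at h
  obtain ⟨⟨⟨h1, h2⟩, h3⟩, h4⟩ := h
  by_cases e0 : kd = 0 ∨ kd = 1
  · have n0 : (Nat.beq kd 0 || Nat.beq kd 1) = true := by rw [Bool.or_eq_true, nbeq, nbeq]; exact e0
    rw [n0, cond_true, Bool.and_eq_true, Bool.and_eq_true, Bool.and_eq_true, nbeq, lb_iff, lb_iff,
      Nat.ble_eq] at h4
    obtain ⟨⟨g1, g2⟩, g3, g4⟩ := h4
    exact ⟨⟨Or.inl ⟨e0, g1, g2, g3, by omega⟩, ⟨h1, h2⟩, h3, fun e => by omega⟩, fun e => by omega⟩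
  have n0 : (Nat.beq kd 0 || Nat.beq kd 1) = false := by
    rw [← Bool.not_eq_true, Bool.or_eq_true, nbeq, nbeq]; exact e0
  rw [n0, cond_false] at h4
  by_cases e9 : kd = 9
  · subst e9
    rw [nbeq.2 rfl, cond_true, Bool.and_eq_true, Bool.and_eq_true, Bool.and_eq_true, nbeq, lb_iff, lb_iff,
      lb_iff] at h4
    obtain ⟨⟨g1, g2⟩, g3, g4⟩ := h4
    exact ⟨⟨Or.inr (Or.inr (Or.inl ⟨rfl, g1, g2, g3⟩)), ⟨h1, h2⟩, h3, fun e => by omega⟩, fun _ => ⟨g4, h2⟩⟩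
  have n9 : Nat.beq kd 9 = false := by rw [← Bool.not_eq_true, nbeq]; exact e9
  rw [n9, cond_false] at h4
  by_cases e11 : kd = 11
  · subst e11
    rw [nbeq.2 rfl, cond_true, Bool.and_eq_true, Bool.and_eq_true, Bool.and_eq_true, nbeq, lb_iff, lb_iff,
      lb_iff] at h4
    obtain ⟨⟨g1, g2⟩, g3, g4⟩ := h4
    exact ⟨⟨Or.inr (Or.inr (Or.inr (Or.inl ⟨rfl, g1, g2, g3⟩))), ⟨h1, h2⟩, h3, fun e => by omega⟩, fun _ => ⟨g4, h2⟩⟩
  have n11 : Nat.beq kd 11 = false := by rw [← Bool.not_eq_true, nbeq]; exact e11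
  rw [n11, cond_false] at h4
  by_cases e6 : kd = 6
  · subst e6
    rw [nbeq.2 rfl, cond_true, Bool.and_eq_true, Bool.and_eq_true, nbeq, nbeq, nbeq] at h4
    obtain ⟨⟨g1, g2⟩, g3⟩ := h4
    exact ⟨⟨Or.inr (Or.inl ⟨Or.inr (Or.inr rfl), g1, g2⟩), ⟨h1, h2⟩, h3, fun _ => g3⟩, fun e => by omega⟩
  have n6 : Nat.beq kd 6 = false := by rw [← Bool.not_eq_true, nbeq]; exact e6
  rw [n6, cond_false] at h4
  by_cases e4 : kd = 4 ∨ kd = 5
  · have n4 : (Nat.beq kd 4 || Nat.beq kd 5) = true := by rw [Bool.or_eq_true, nbeq, nbeq]; exact e4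
    rw [n4, cond_true, Bool.and_eq_true, nbeq, nbeq] at h4
    exact ⟨⟨Or.inr (Or.inl ⟨e4.imp id Or.inl, h4.1, h4.2⟩), ⟨h1, h2⟩, h3, fun e => by omega⟩, fun e => by omega⟩
  have n4 : (Nat.beq kd 4 || Nat.beq kd 5) = false := by
    rw [← Bool.not_eq_true, Bool.or_eq_true, nbeq, nbeq]; exact e4
  rw [n4, cond_false, Bool.and_eq_true, nbeq] at h4
  obtain ⟨rfl, h4⟩ := h4
  by_cases e5 : k = 5
  · subst e5
    rw [nbeq.2 rfl, cond_true, Bool.and_eq_true, nbeq, lb_iff] at h4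
    exact ⟨⟨Or.inr (Or.inr (Or.inr (Or.inr (Or.inr ⟨rfl, rfl, h4.1⟩)))), ⟨h1, h2⟩, h3, fun _ => h4.2⟩,
      fun e => by omega⟩
  · have n5 : Nat.beq k 5 = false := by rw [← Bool.not_eq_true, nbeq]; exact e5
    rw [n5, cond_false, Bool.and_eq_true, Bool.or_eq_true, Bool.or_eq_true, nbeq, nbeq, nbeq, lb_iff] at h4
    exact ⟨⟨Or.inr (Or.inr (Or.inr (Or.inr (Or.inl ⟨rfl, h4.1, h4.2⟩)))), ⟨h1, h2⟩, h3, fun e => by omega⟩,
      fun e => by omega⟩

/-- check of a valid literal -/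
def wnL (NP NW TC l : ℕ) : Bool :=
  wnF NP NW TC (a0 (Nat.div l 2)) (a1 (Nat.div l 2)) (a2 (Nat.div l 2)) (a3 (Nat.div l 2)) (a4 (Nat.div l 2))

/-- check of a valid pattern -/
def vlB (NP NW TC : ℕ) (P : List ℕ) : Bool := alL (wnL NP NW TC) P

theorem vl_of_B {NP NW TC : ℕ} {P : List ℕ} (h : vlB NP NW TC P = true) : Vl (Gp NP TC) (Ce NW TC) P :=
  fun l hl => wa_of_F (alL_spec h l hl)

/-- the packed patterns `N` are the patterns `L`, all are valid -/
def chL (NP NW TC : ℕ) (N : List ℕ) : List (List ℕ) → Bool :=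
  @List.rec ℕ (fun _ => List (List ℕ) → Bool)
    (fun L => @List.rec (List ℕ) (fun _ => Bool) true (fun _ _ _ => false) L)
    (fun x _ ih L => @List.rec (List ℕ) (fun _ => Bool) false
      (fun P L' _ => (eqLc (pk x) P && vlB NP NW TC P) && ih L') L) N

theorem chL_spec {NP NW TC : ℕ} {N : List ℕ} {L : List (List ℕ)} (h : chL NP NW TC N L = true) :
    ∀ x ∈ N, pk x ∈ L ∧ Vl (Gp NP TC) (Ce NW TC) (pk x) := by
  induction N generalizing L with
  | nil => exact fun x hx => absurd hx List.not_mem_nil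
  | cons y N ih =>
    cases L with
    | nil => exact absurd h Bool.false_ne_true
    | cons P L =>
      have h1 : ((eqLc (pk y) P && vlB NP NW TC P) && chL NP NW TC N L) = true := h
      rw [Bool.and_eq_true, Bool.and_eq_true] at h1
      intro x hx
      rcases List.mem_cons.1 hx with rfl | hx
      · have e := eqLc_spec h1.1.1
        rw [e]
        exact ⟨List.mem_cons_self, vl_of_B h1.1.2⟩
      · obtain ⟨h2, h3⟩ := ih h1.2 x hx
        exact ⟨List.mem_cons_of_mem _ h2, h3⟩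

/-- the tree `t` is the tree of the patterns `L` -/
def chT (NP NW TC : ℕ) (t : PTr) (L : List (List ℕ)) : Bool := chL NP NW TC (t.lvs []) L

/-- the tree of a list of dead patterns -/
theorem tr_dead {NP NW TC : ℕ} {t : PTr} {L : List (List ℕ)} (h : chT NP NW TC t L = true) {C : FrW → Prop}
    (hL : ∀ P ∈ L, Vl (Gp NP TC) (Ce NW TC) P → Dead (kap TC) C P) :
    t.All fun p => Dead (kap TC) C (pk p) ∧ Vl (Gp NP TC) (Ce NW TC) (pk p) := by
  refine (PTr.all_of (acc := []) fun x hx => ?_).1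
  obtain ⟨h1, h2⟩ := chL_spec h x hx
  exact ⟨hL _ h1 h2, h2⟩

end Vale.Agent.P032.H529.W
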