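import Vale.Agent.P032.H529.W.FrF
import Vale.Agent.P032.H635.W.LegW

/-!
# P032: certificates with images of dead patterns (wild)

* `genY` : a generator with external clauses given by a function of the code (kind `56`) and with definitions,
* `dead_G`, `dead_QG` : a pattern is dead by a certificate / a query, for any law `Ex` of the models,
* `dead_qG`, `dead_MG`, `dead_MQG` : the same with images of dead patterns (one pool, two pools),
* `rep_mkW` : the models of `H635/W/LegW.lean` represent the frame; `Mdl`, `exists_mdl`.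
-/

open Set Filter Topology Metric

noncomputable section

namespace Vale.Agent.P032.H529.W

open Vale.Agent.P032.Six Vale.Agent.P032.Words Vale.Agent.P032.S5.H767 Vale.Agent.P032.H892
  Vale.Agent.P032.H913 Vale.Agent.P032.H357 Vale.Agent.P032.H556 Vale.Agent.P032.H515
open Vale.Agent.P032.H61 (hp rC mC pn pn_lt lm f6 f6_eq kap cxv Gp Ce Tabs ncl ptb gchk tabs_of_gchk cpf pk PTr uns gA
  DO RSt LSt nX nO t2 tick_t2 yc_P)
open Vale.Agent.P032.H357.MK (fx0 al nbeq Tb Cn Yt Yc fc Yw Zf yw_fc hY_of_tchk)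
open Vale.Agent.P032.H820.K (nbf lb lb_iff trv)
open Vale.Agent.P032.H240.W (MdW vx lv Ho ho_trv ho_bif nthC_ho genX genX_ho x1_ho x2_ho chkG chkG_sound)
open Vale.Agent.P032.H635.W (SP cm stW WD DtW mkW exists_dt XB LegW RlW evs)

/-! ### generators with external clauses by code -/

/-- external clauses (kind `56`) from a function of the code -/
def genY (gen : ℕ → List ℕ) (E : ℕ → List ℕ) (T : ℕ → List ℕ) (n : ℕ) : List ℕ :=
  bif Nat.beq (Nat.land n 63) 56 then E (Nat.shiftRight n 6) else genX gen [] T n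

theorem genY_ho {v : ℕ → Prop} {gen E T : ℕ → List ℕ} (hg : ∀ n, Ho (vx v T) (gen n)) (hE : ∀ i, Ho (vx v T) (E i))
    (n : ℕ) : Ho (vx v T) (genY gen E T n) :=
  ho_bif (hE _) (genX_ho hg (fun _ hc => absurd hc List.not_mem_nil) n)

/-! ### dead patterns by certificates -/

section
variable {NP NW TC TG : ℕ} {nb : ℕ → ℕ → ℕ} {C C' C'' : FrW → Prop} {Ex : MdW 2 NP NW nb → Prop}

/-- every frame of the class has a model with the law `Ex` -/
def HasM (NP NW TC : ℕ) (C : FrW → Prop) {nb : ℕ → ℕ → ℕ} (Ex : MdW 2 NP NW nb → Prop) : Prop :=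
  ∀ F, C F → ∃ M, Rep NP NW TC F M ∧ Ex M

/-- the clauses `e` (with the definitions `T`) hold in the models of the class -/
def Law (NP NW TC : ℕ) (C : FrW → Prop) {nb : ℕ → ℕ → ℕ} (Ex : MdW 2 NP NW nb → Prop) (T : ℕ → List ℕ)
    (e : List (List ℕ)) : Prop := ∀ F M, C F → Rep NP NW TC F M → Ex M → ∀ c ∈ e, Ho (vx M.bv T) c

/-- **A pattern is dead by a query.** -/
theorem dead_QG (hX : HasM NP NW TC C' Ex) {P : List ℕ} (hv : Vl (Gp NP TC) (Ce NW TC) P) {T E : ℕ → List ℕ}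
    (hE : ∀ F M, C' F → Rep NP NW TC F M → Ex M → (∀ l ∈ P, lv (vx M.bv T) l) → ∀ i, Ho (vx M.bv T) (E i))
    (hq : ∀ M, Ex M → (∀ i, Ho (vx M.bv T) (E i)) → False) : Dead (kap TC) C' P := by
  intro F hF hall
  obtain ⟨M, hM, hx⟩ := hX F hF
  exact hq M hx (hE F M hF hM hx fun l hl => (hM.lx (hv l hl)).2 (hall l hl))

/-- **A pattern is dead by a certificate.** -/
theorem dead_G (hX : HasM NP NW TC C' Ex) {P : List ℕ} (hv : Vl (Gp NP TC) (Ce NW TC) P) {gen T E : ℕ → List ℕ}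
    (hg : ∀ M, Ex M → ∀ n, Ho (vx M.bv T) (gen n))
    (hE : ∀ F M, C' F → Rep NP NW TC F M → Ex M → (∀ l ∈ P, lv (vx M.bv T) l) → ∀ i, Ho (vx M.bv T) (E i))
    {b HB dA d : ℕ} {A CC D H : List ℕ} (hq : chkG (genY gen E T) b HB dA d A CC D H = true) :
    Dead (kap TC) C' P :=
  dead_QG hX hv hE fun M hx h => chkG_sound hq fun n => genY_ho (hg M hx) h n

/-- the clauses of `eC` -/
theorem eC_law (t : Tabs (kap TC) (Gp NP TC) (Ce NW TC) (ptb TG)) (hCC : ∀ F, C' F → C F)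
    (hCr : ∀ F, C F → C (F.rot (ptb TG 1))) (hCm : ∀ F, C F → C (F.mir (ptb TG 6))) {PT NPM : ℕ} (hPT : OkPT C PT NPM)
    {tr : PTr} (ht : tr.All fun p => Dead (kap TC) C (pk p) ∧ Vl (Gp NP TC) (Ce NW TC) (pk p)) {T : ℕ → List ℕ}
    {e : List (List ℕ)} (he : Law NP NW TC C' Ex T e) {P : List ℕ} (F : FrW) (M : MdW 2 NP NW nb) (hF : C' F)
    (hM : Rep NP NW TC F M) (hx : Ex M) (hP : ∀ l ∈ P, lv (vx M.bv T) l) (i : ℕ) :
    Ho (vx M.bv T) (eC (e ++ uns P) tr PT NPM TG i) := by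
  refine eC_ho t hM (hCC F hF) hCr hCm hPT ht (fun c hc => ?_) i
  rcases List.mem_append.1 hc with hc | hc
  · exact he F M hF hM hx c hc
  · obtain ⟨l, hl, rfl⟩ := List.mem_map.1 hc
    exact ⟨l, List.mem_singleton_self _, hP l hl⟩

/-- **A pattern is dead by images of dead patterns**, query. -/
theorem dead_qyG (hX : HasM NP NW TC C' Ex) (t : Tabs (kap TC) (Gp NP TC) (Ce NW TC) (ptb TG)) (hCC : ∀ F, C' F → C F)
    (hCr : ∀ F, C F → C (F.rot (ptb TG 1))) (hCm : ∀ F, C F → C (F.mir (ptb TG 6))) {PT NPM : ℕ} (hPT : OkPT C PT NPM)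
    {tr : PTr} (ht : tr.All fun p => Dead (kap TC) C (pk p) ∧ Vl (Gp NP TC) (Ce NW TC) (pk p)) {T : ℕ → List ℕ}
    {e : List (List ℕ)} (he : Law NP NW TC C' Ex T e) {P : List ℕ} (hv : Vl (Gp NP TC) (Ce NW TC) P) {cs : List ℕ}
    (hq : ∀ M, Ex M → (∀ c ∈ cs.map (eC (e ++ uns P) tr PT NPM TG), Ho (vx M.bv T) c) → False) :
    Dead (kap TC) C' P :=
  dead_QG hX hv (T := T) (E := eC (e ++ uns P) tr PT NPM TG) (eC_law t hCC hCr hCm hPT ht he)
    fun M hx h => hq M hx fun c hc => by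
      obtain ⟨i, -, rfl⟩ := List.mem_map.1 hc
      exact h i

/-- **A pattern is dead by images of dead patterns**, certificate. -/
theorem dead_qG (hX : HasM NP NW TC C' Ex) (t : Tabs (kap TC) (Gp NP TC) (Ce NW TC) (ptb TG)) (hCC : ∀ F, C' F → C F)
    (hCr : ∀ F, C F → C (F.rot (ptb TG 1))) (hCm : ∀ F, C F → C (F.mir (ptb TG 6))) {PT NPM : ℕ} (hPT : OkPT C PT NPM)
    {tr : PTr} (ht : tr.All fun p => Dead (kap TC) C (pk p) ∧ Vl (Gp NP TC) (Ce NW TC) (pk p)) {gen T : ℕ → List ℕ}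
    (hg : ∀ M, Ex M → ∀ n, Ho (vx M.bv T) (gen n))
    {e : List (List ℕ)} (he : Law NP NW TC C' Ex T e) {P : List ℕ} (hv : Vl (Gp NP TC) (Ce NW TC) P)
    {b HB dA d : ℕ} {A CC D H : List ℕ}
    (hq : chkG (genY gen (eC (e ++ uns P) tr PT NPM TG) T) b HB dA d A CC D H = true) :
    Dead (kap TC) C' P :=
  dead_G hX hv hg (eC_law t hCC hCr hCm hPT ht he) hq

/-- the clauses of `mE` -/
theorem mE_law (t : Tabs (kap TC) (Gp NP TC) (Ce NW TC) (ptb TG)) (hCC : ∀ F, C'' F → C F)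
    (hCC' : ∀ F, C'' F → C' F) (hCr : ∀ F, C F → C (F.rot (ptb TG 1)))
    (hCm : ∀ F, C F → C (F.mir (ptb TG 6))) (hCm' : ∀ F, C' F → C' (F.mir (ptb TG 6)))
    {PT NPM PT' NPM' : ℕ} (hPT : OkPT C PT NPM) (hPT' : OkPT C' PT' NPM') {t1 t2 : PTr}
    (ht1 : t1.All fun p => Dead (kap TC) C (pk p) ∧ Vl (Gp NP TC) (Ce NW TC) (pk p))
    (ht2 : t2.All fun p => Dead (kap TC) C' (pk p) ∧ Vl (Gp NP TC) (Ce NW TC) (pk p)) {T : ℕ → List ℕ}
    {e : List (List ℕ)} (he : Law NP NW TC C'' Ex T e) {P : List ℕ} (F : FrW) (M : MdW 2 NP NW nb) (hF : C'' F)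
    (hM : Rep NP NW TC F M) (hx : Ex M) (hP : ∀ l ∈ P, lv (vx M.bv T) l) (i : ℕ) :
    Ho (vx M.bv T) (mE e P t1 t2 PT NPM PT' NPM' TG i) :=
  sel4_ho (bsC_ho (he F M hF hM hx) hP) (imT_ho t hM (hCC F hF) (gA_ok t hCr hCm) hPT ht1) (fun _ => ho_trv)
    (imT_ho t hM (hCC' F hF) (gS_ok t hCm') hPT' ht2) i

/-- **The master with two pools**, certificate.  `C` : the class of the patterns of `t1`, `C'` : the class of the
patterns of `t2`, `C''` : the class of the conclusion. -/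
theorem dead_MG (hX : HasM NP NW TC C'' Ex) (t : Tabs (kap TC) (Gp NP TC) (Ce NW TC) (ptb TG))
    (hCC : ∀ F, C'' F → C F) (hCC' : ∀ F, C'' F → C' F) (hCr : ∀ F, C F → C (F.rot (ptb TG 1)))
    (hCm : ∀ F, C F → C (F.mir (ptb TG 6))) (hCm' : ∀ F, C' F → C' (F.mir (ptb TG 6)))
    {PT NPM PT' NPM' : ℕ} (hPT : OkPT C PT NPM) (hPT' : OkPT C' PT' NPM') {t1 t2 : PTr}
    (ht1 : t1.All fun p => Dead (kap TC) C (pk p) ∧ Vl (Gp NP TC) (Ce NW TC) (pk p))
    (ht2 : t2.All fun p => Dead (kap TC) C' (pk p) ∧ Vl (Gp NP TC) (Ce NW TC) (pk p)) {gen T : ℕ → List ℕ}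
    (hg : ∀ M, Ex M → ∀ n, Ho (vx M.bv T) (gen n))
    {e : List (List ℕ)} (he : Law NP NW TC C'' Ex T e) {P : List ℕ} (hv : Vl (Gp NP TC) (Ce NW TC) P)
    {b HB dA d : ℕ} {A CC D H : List ℕ}
    (hq : chkG (genY gen (mE e P t1 t2 PT NPM PT' NPM' TG) T) b HB dA d A CC D H = true) :
    Dead (kap TC) C'' P :=
  dead_G hX hv hg (mE_law t hCC hCC' hCr hCm hCm' hPT hPT' ht1 ht2 he) hq

/-- **The master with two pools**, query. -/
theorem dead_MQG (hX : HasM NP NW TC C'' Ex) (t : Tabs (kap TC) (Gp NP TC) (Ce NW TC) (ptb TG))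
    (hCC : ∀ F, C'' F → C F) (hCC' : ∀ F, C'' F → C' F) (hCr : ∀ F, C F → C (F.rot (ptb TG 1)))
    (hCm : ∀ F, C F → C (F.mir (ptb TG 6))) (hCm' : ∀ F, C' F → C' (F.mir (ptb TG 6)))
    {PT NPM PT' NPM' : ℕ} (hPT : OkPT C PT NPM) (hPT' : OkPT C' PT' NPM') {t1 t2 : PTr}
    (ht1 : t1.All fun p => Dead (kap TC) C (pk p) ∧ Vl (Gp NP TC) (Ce NW TC) (pk p))
    (ht2 : t2.All fun p => Dead (kap TC) C' (pk p) ∧ Vl (Gp NP TC) (Ce NW TC) (pk p)) {T : ℕ → List ℕ}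
    {e : List (List ℕ)} (he : Law NP NW TC C'' Ex T e) {P : List ℕ} (hv : Vl (Gp NP TC) (Ce NW TC) P) {cs : List ℕ}
    (hq : ∀ M, Ex M → (∀ c ∈ cs.map (mE e P t1 t2 PT NPM PT' NPM' TG), Ho (vx M.bv T) c) → False) :
    Dead (kap TC) C'' P :=
  dead_QG hX hv (T := T) (E := mE e P t1 t2 PT NPM PT' NPM' TG)
    (mE_law t hCC hCC' hCr hCm hCm' hPT hPT' ht1 ht2 he) fun M hx h => hq M hx fun c hc => by
      obtain ⟨i, -, rfl⟩ := List.mem_map.1 hc
      exact h i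

/-- a dead pattern implies the pattern with more literals is dead -/
theorem Dead.mono {κ : ℕ → ℤ × ℤ} {P Q : List ℕ} (h : Dead κ C P) (hC : ∀ F, C' F → C F) (hPQ : P ⊆ Q) :
    Dead κ C' Q := fun F hF hall => h F (hC F hF) fun l hl => hall l (hPQ hl)

end

/-! ### the models of the legs -/

section
variable {NP NW TB TC : ℕ} {F : FrW} {u : ℝ}

theorem zf_eq : Zf F.b TC F.z NW = F.Z (kap TC) (cxv NW TC) := by
  funext c
  exact yc_P (F := ⟨F.U, F.T, F.z, F.b, F.σ, fun _ => (0, 0), fun _ => (0, 0)⟩)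

/-- **the model of the data of a leg represents the frame** -/
theorem rep_mkW (h : Irr F.U F.T) (B : Tb NP NW TB TC) (hu : u ∈ Ioo F.b (F.b + 1)) {L R : Cn NW TC × Fin 6 → SP}
    {W : WD NW} {J : ℕ → ℕ → ℕ → ℕ}
    (D : DtW F.U F.T NP NW TB TC F.z F.σ F.b u (rS (cxv NW TC) F.s0) (rS (cxv NW TC) F.s1) L R W J)
    (X : ℕ → ℕ → ℕ → ℕ → Prop) : Rep NP NW TC F (mkW h B hu D X) := by
  refine rep_mk h hu (by norm_num) B.hNP B.hNW (hY_of_tchk (tick_t2 hu) F.z B.ht)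
    (w := fun r => pw F.U F.T (fun j : Fin NW => Yt (t2 F.b u) 2 TC F.z j.val) (W r)) (fun r => sw_pw (D.D r) h) D.hJ X ?_
  intro c m
  have e0 : (2 * m) % 2 = 0 := by omega
  have e1 : 2 * m / 2 = m := by omega
  have k : ∀ sd io : ℕ, sd < 2 → io < 2 → W 0 (fc c) (2 * m) sd io =
      cm io (stW (rS (cxv NW TC) F.s0) (rS (cxv NW TC) F.s1) L R c (2 * m) sd) := by
    intro sd io hs hio
    have h1 := D.hW c (2 * m) sd io hs hio
    rwa [e0] at h1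
  have k1 : ∀ io, io < 2 → W 0 (fc c) (2 * m) 1 io = cm io (rS (cxv NW TC) F.s0 (c, f6 m)) := by
    intro io hio
    rw [k 1 io (by norm_num) hio]
    unfold stW
    rw [if_pos e0, if_pos rfl, e1]
  have k0 : ∀ io, io < 2 → W 0 (fc c) (2 * m) 0 io = cm io (rS (cxv NW TC) F.s1 (c, f6 (m + 5))) := by
    intro io hio
    rw [k 0 io (by norm_num) hio]
    unfold stW
    rw [if_pos e0, if_neg (by norm_num), e1]
  have k10 : W 0 (fc c) (2 * m) 1 0 = (rS (cxv NW TC) F.s0 (c, f6 m)).1 := k1 0 (by norm_num)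
  have k11 : W 0 (fc c) (2 * m) 1 1 = (rS (cxv NW TC) F.s0 (c, f6 m)).2 := k1 1 (by norm_num)
  have k00 : W 0 (fc c) (2 * m) 0 0 = (rS (cxv NW TC) F.s1 (c, f6 (m + 5))).1 := k0 0 (by norm_num)
  have k01 : W 0 (fc c) (2 * m) 0 1 = (rS (cxv NW TC) F.s1 (c, f6 (m + 5))).2 := k0 1 (by norm_num)
  have eY : Yt (t2 F.b u) 2 TC F.z (fc c).val = F.Z (kap TC) (cxv NW TC) c := by
    have h1 : Yw F.b u TC F.z NW (fc c) = Zf F.b TC F.z NW c := yw_fc c
    rw [zf_eq] at h1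
    exact h1
  refine ⟨⟨⟨k10, k11⟩, k00, k01⟩, ⟨?_, ?_⟩, ?_, ?_⟩
  · show pw F.U F.T (fun j : Fin NW => Yt (t2 F.b u) 2 TC F.z j.val) (W 0) (fc c) (2 * m) 1 0 = _
    unfold pw pkS; beta_reduce
    rw [if_pos rfl, k10, k11, eY]
  · show pw F.U F.T (fun j : Fin NW => Yt (t2 F.b u) 2 TC F.z j.val) (W 0) (fc c) (2 * m) 1 1 = _
    unfold pw pkS; beta_reduce
    rw [if_neg (by norm_num), k10, k11, eY]
  · show pw F.U F.T (fun j : Fin NW => Yt (t2 F.b u) 2 TC F.z j.val) (W 0) (fc c) (2 * m) 0 0 = _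
    unfold pw pkS; beta_reduce
    rw [if_pos rfl, k00, k01, eY]
  · show pw F.U F.T (fun j : Fin NW => Yt (t2 F.b u) 2 TC F.z j.val) (W 0) (fc c) (2 * m) 0 1 = _
    unfold pw pkS; beta_reduce
    rw [if_neg (by norm_num), k00, k01, eY]

/-- every legal model represents the frame -/
theorem rep_leg {okB ok0B : ℕ → Bool} {rB : ℕ → ℕ → ℕ} (h : Irr F.U F.T) (B : Tb NP NW TB TC)
    (X : XB F.U F.T NP NW TB TC okB ok0B rB F.z F.σ F.b (rS (cxv NW TC) F.s0) (rS (cxv NW TC) F.s1))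
    {M : MdW 2 NP NW (nbf 2 TB)} (hM : LegW h B X M) : Rep NP NW TC F M := by
  obtain ⟨u, hu, L, R, b, W, J, Bx, D, -, -, rfl⟩ := hM
  exact rep_mkW h B hu D Bx

end

end Vale.Agent.P032.H529.W
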