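import Vale.Agent.P032.H529.W.FrG
import Vale.Agent.P032.H635.W.PdrW

/-!
# P032: certified patterns are dead (wild)

* `Blk` : every frame of the class `C` is valid and has further bits `X` (`H635.W.XB`) whose legal models obey `Ex`,
* `exists_leg` : there is a legal model,
* **`dead_of_patW`** : a certified pattern (`H635.W.PatW`) is dead in the class,
* `tr_allW` : trees of certified patterns, `hasM_of_blk` : the models for the master.
-/

open Set Filter Topology Metric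

noncomputable section

namespace Vale.Agent.P032.H529.W

open Vale.Agent.P032.Six Vale.Agent.P032.Words Vale.Agent.P032.S5.H767 Vale.Agent.P032.H892
  Vale.Agent.P032.H913 Vale.Agent.P032.H357 Vale.Agent.P032.H556 Vale.Agent.P032.H515
open Vale.Agent.P032.H61 (kap cxv Gp Ce DO RSt LSt nX nO pk PTr)
open Vale.Agent.P032.H357.MK (Tb Cn Zf)
open Vale.Agent.P032.H820.K (nbf)
open Vale.Agent.P032.H240.W (MdW vx lv Ho)
open Vale.Agent.P032.H635.W (SP mkW exists_dt XB LegW RlW evs PatW pdrW DhW mem_evs_of_lst)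

variable {NP NW TB TC : ℕ} {okB ok0B : ℕ → Bool} {rB : ℕ → ℕ → ℕ}

/-- the further bits for a frame -/
abbrev XF (NP NW TB TC : ℕ) (okB ok0B : ℕ → Bool) (rB : ℕ → ℕ → ℕ) (F : FrW) : Type 1 :=
  XB F.U F.T NP NW TB TC okB ok0B rB F.z F.σ F.b (rS (cxv NW TC) F.s0) (rS (cxv NW TC) F.s1)

theorem FOk.r0' {F : FrW} (h : FOk (kap TC) (cxv NW TC) F) :
    rS (cxv NW TC) F.s0 ∈ RSt DO (IPs F.U F.T (nX (Zf F.b TC F.z NW)) nO) F.b := by
  rw [zf_eq]; exact h.r0

theorem FOk.r1' {F : FrW} (h : FOk (kap TC) (cxv NW TC) F) :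
    rS (cxv NW TC) F.s1 ∈ LSt DO (IPs F.U F.T (nX (Zf F.b TC F.z NW)) nO) (F.b + 1) := by
  rw [zf_eq]; exact h.r1

/-- **there is a legal model** -/
theorem exists_leg {F : FrW} (hF : FOk (kap TC) (cxv NW TC) F) (h : Irr F.U F.T) (B : Tb NP NW TB TC)
    (X : XF NP NW TB TC okB ok0B rB F) : ∃ M, LegW h B X M := by
  have := X.finβ
  have := X.finH
  have hcl : ∀ (j : Cn NW TC ⊕ X.β) (q : Fin 6), IsClosed (DhW F.T (Zf F.b TC F.z NW) X.Dx j q) := by
    rintro (c | i) q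
    · exact shD_closed F.T _ c q
    · exact X.hD i q
  obtain ⟨⟨ua, hua, ka1, ka2, -⟩, -⟩ := wgen_states_all (D := DhW F.T (Zf F.b TC F.z NW) X.Dx) h hcl hF.r0' hF.r1'
  obtain ⟨W, J, Bx, D, hPX⟩ := X.ex (b := {j | X.Q j (rS (cxv NW TC) F.s0)}) hua ka1 ka2 le_rfl le_rfl
    (fun j hj => Or.inl hj)
  exact ⟨mkW h B hua D Bx, ua, hua, _, _, _, W, J, Bx, D, ⟨le_rfl, le_rfl, fun j hj => Or.inl hj⟩, hPX, rfl⟩

/-- **A block**: every frame of the class is valid and has further bits whose legal models obey the law `Ex`. -/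
def Blk (B : Tb NP NW TB TC) (okB ok0B : ℕ → Bool) (rB : ℕ → ℕ → ℕ) (Ex : MdW 2 NP NW (nbf 2 TB) → Prop)
    (C : FrW → Prop) : Prop :=
  ∀ F, C F → FOk (kap TC) (cxv NW TC) F ∧ ∃ (h : Irr F.U F.T) (X : XF NP NW TB TC okB ok0B rB F),
    ∀ M, LegW h B X M → Ex M

section
variable {B : Tb NP NW TB TC} {Ex : MdW 2 NP NW (nbf 2 TB) → Prop} {C C' : FrW → Prop}

theorem Blk.mono (hB : Blk B okB ok0B rB Ex C) (h : ∀ F, C' F → C F) : Blk B okB ok0B rB Ex C' :=
  fun F hF => hB F (h F hF)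

/-- the models for the master -/
theorem hasM_of_blk (hB : Blk B okB ok0B rB Ex C) : HasM NP NW TC C Ex := by
  intro F hF
  obtain ⟨hok, h, X, hX⟩ := hB F hF
  obtain ⟨M, hM⟩ := exists_leg hok h B X
  exact ⟨M, rep_leg h B X hM, hX M hM⟩

/-- **A certified pattern is dead.** -/
theorem dead_of_patW (hB : Blk B okB ok0B rB Ex C) {P : List ℕ} (hv : Vl (Gp NP TC) (Ce NW TC) P)
    {Inv : List (List ℕ)} (H : PatW TC okB ok0B rB Ex P Inv) : Dead (kap TC) C P := by
  intro F hF hall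
  obtain ⟨hok, h, X, hX⟩ := hB F hF
  obtain ⟨M, hM⟩ := exists_leg hok h B X
  refine pdrW hX H ⟨M, hM, fun l hl => ?_⟩
  exact ((rep_leg h B X hM).lv (hv l hl)).2 (hall l hl)

/-- **the tree of a list of certified patterns** -/
theorem tr_allW (hB : Blk B okB ok0B rB Ex C) {t : PTr} {L : List (List ℕ)} (h : chT NP NW TC t L = true)
    (hL : ∀ P ∈ L, ∃ Inv, PatW TC okB ok0B rB Ex P Inv) :
    t.All fun p => Dead (kap TC) C (pk p) ∧ Vl (Gp NP TC) (Ce NW TC) (pk p) :=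
  tr_dead h fun P hP hv => by
    obtain ⟨Inv, hI⟩ := hL P hP
    exact dead_of_patW hB hv hI

end

end Vale.Agent.P032.H529.W
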