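import Vale.Agent.P032.H529.W.FrH
import Vale.Agent.P032.H61.BlkA
import Vale.Agent.P032.S5.H843.Core7

/-!
# P032: the blocks of the wild frame

* `MC Q` : a condition on `(U, T, point)` is kept by the mirror image; `mc_mn`, `mc_ln`, `mc_ctn`, ..,
* `CB Q S` : valid frames with `Q` at the centre and `S` for the numbers of the colours; `CB.rot`, `CB.mir`, `CB.col`,
* `CV Q S R` : also `R` at the point in the direction `b`; `CV.mir`, `CV.col`,
* `no_pair` : **no unit pair `(z, v)` with `Q`, `S`, `R`, if the empty pattern is dead**,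
* `SD`, `SX n` : the conditions of two-pair points and of points with `n` colours.
-/

open Set Filter Topology Metric

noncomputable section

namespace Vale.Agent.P032.H529.W

open Vale.Agent.P032.Six Vale.Agent.P032.Words Vale.Agent.P032.S5.H767 Vale.Agent.P032.H892
  Vale.Agent.P032.H913 Vale.Agent.P032.H357 Vale.Agent.P032.H556 Vale.Agent.P032.H515
open Vale.Agent.P032.H61 (hp rC mC mU mT pn pn_lt co_pn lm kap cxv Gp Ce Tabs ptb DO RSt LSt cpf isPm exists_pm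
  ln_mir)
open Vale.Agent.P032.H357.MK (fx0 al al_spec Cn co co_inj co_surj of6 ct6 nbeq)
open Vale.Agent.P032.H820.K (lb lb_iff)

/-! ### conditions kept by the mirror image -/

/-- a condition on a frame and a point -/
abbrev Cnd : Type := (Fin 6 → Set ℂ) → (ℂ → Set (Fin 6)) → ℂ → Prop

/-- kept by the mirror image -/
def MC (Q : Cnd) : Prop := ∀ U T z, Q U T z → Q (mU U) (mT T) (cj z)

theorem MC.and {Q R : Cnd} (h : MC Q) (h' : MC R) : MC fun U T z => Q U T z ∧ R U T z :=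
  fun U T z hz => ⟨h U T z hz.1, h' U T z hz.2⟩

theorem mc_true : MC fun _ _ _ => True := fun _ _ _ _ => trivial

theorem mn_mir {U : Fin 6 → Set ℂ} {T : ℂ → Set (Fin 6)} (h : Mn U T) : Mn (mU U) (mT T) := by
  intro z hz s hs hne hev
  refine h (cj z) hz s hs hne ?_
  have h1 : ∀ᶠ w in 𝓝 (cj z), ∃ i ∈ s, cj w ∈ mU U i ∨ (cj w ∈ XX (mU U) ∧ i ∈ Pal (mU U) (cj w)) := by
    have hc : ContinuousAt (fun w : ℂ => cj w) (cj z) := cj.continuous.continuousAt
    have h2 : Tendsto (fun w : ℂ => cj w) (𝓝 (cj z)) (𝓝 z) := by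
      have := hc.tendsto
      rwa [cj_cj] at this
    exact h2.eventually hev
  filter_upwards [h1] with w hw
  obtain ⟨i, hi, hw⟩ := hw
  refine ⟨i, hi, ?_⟩
  rcases hw with hw | ⟨hw, hw'⟩
  · left
    have : cj (cj w) ∈ U i := hw
    rwa [cj_cj] at this
  · right
    have e1 : cj w ∈ XX (fun i => cj ⁻¹' U i) := hw
    have e2 : i ∈ Pal (fun i => cj ⁻¹' U i) (cj w) := hw'
    rw [xx_isom, cj_cj] at e1
    rw [pal_isom, cj_cj] at e2
    exact ⟨e1, e2⟩

theorem mc_mn : MC fun U T _ => Mn U T := fun _ _ _ h => mn_mir h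

theorem mc_ln : MC fun U T _ => Ln U T := fun _ _ _ h => ln_mir h

theorem mc_ctn : MC fun U T z => Ctn U T z := fun U T z h => ctn_isom cj (by rw [cj_cj]; exact h)

theorem mT_cj {T : ℂ → Set (Fin 6)} (z : ℂ) : mT T (cj z) = T z := by
  show T (cj (cj z)) = T z
  rw [cj_cj]

theorem mc_ge (n : ℕ) : MC fun _ T z => n ≤ (T z).ncard := fun U T z h => by
  show n ≤ (mT T (cj z)).ncard
  rw [mT_cj]; exact h

theorem mc_le (n : ℕ) : MC fun _ T z => (T z).ncard ≤ n := fun U T z h => by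
  show (mT T (cj z)).ncard ≤ n
  rw [mT_cj]; exact h

theorem mc_eq (n : ℕ) : MC fun _ T z => (T z).ncard = n := fun U T z h => by
  show (mT T (cj z)).ncard = n
  rw [mT_cj]; exact h

theorem dist_cj (z w : ℂ) : dist (cj z) (cj w) = dist z w := cj.isometry.dist_eq z w

/-- at all points of the circle -/
theorem mc_circ {Q : Cnd} (h : MC Q) : MC fun U T z => ∀ y, dist z y = 1 → Q U T y := fun U T z hz y hy => by
  have h1 : dist z (cj y) = 1 := by
    rw [← dist_cj, cj_cj]; exact hy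
  have h2 := h U T (cj y) (hz (cj y) h1)
  rwa [cj_cj] at h2

theorem arc_mir {T : ℂ → Set (Fin 6)} {z p : ℂ} {P : Set (Fin 6)} (h : Arc T z p P) : Arc (mT T) (cj z) (cj p) P := by
  refine ⟨by rw [dist_cj]; exact h.1, ?_⟩
  have h1 := h.2
  rw [eventually_nhdsWithin_iff] at h1 ⊢
  have h2 : Tendsto (fun w : ℂ => cj w) (𝓝 (cj p)) (𝓝 p) := by
    have hc : ContinuousAt (fun w : ℂ => cj w) (cj p) := cj.continuous.continuousAt
    have := hc.tendsto
    rwa [cj_cj] at this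
  filter_upwards [h2.eventually h1] with w hw hws
  refine hw ?_
  rw [mem_sphere] at hws ⊢
  rw [← dist_cj, cj_cj]
  exact hws

theorem dpt_mir {T : ℂ → Set (Fin 6)} {z : ℂ} {a b c d : Fin 6} (h : DPt T z a b c d) :
    DPt (mT T) (cj z) a b c d where
  pal := by rw [mT_cj]; exact h.pal
  ac := h.ac
  ad := h.ad
  bc := h.bc
  bd := h.bd
  ab := h.ab
  cd := h.cd
  arc1 := by
    obtain ⟨p, hp⟩ := h.arc1
    exact ⟨cj p, arc_mir hp⟩
  arc2 := by
    obtain ⟨p, hp⟩ := h.arc2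
    exact ⟨cj p, arc_mir hp⟩

theorem dpt_mir' {T : ℂ → Set (Fin 6)} {z : ℂ} {a b c d : Fin 6} (h : DPt (mT T) z a b c d) :
    DPt T (cj z) a b c d := by
  have h1 := dpt_mir h
  have e : mT (mT T) = T := by
    funext w
    show T (cj (cj w)) = T w
    rw [cj_cj]
  rwa [e] at h1

/-! ### the classes -/

/-- a condition on the numbers of the colours, the cover and the centre -/
abbrev Cnl : Type := (ℕ → Fin 6) → (ℂ → Set (Fin 6)) → ℂ → Prop

/-- kept by the mirror image -/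
def MS (S : Cnl) : Prop := ∀ f T z, S f T z → S f (mT T) (cj z)

/-- kept by the permutation `π` -/
def PS (S : Cnl) (π : Equiv.Perm (Fin 6)) : Prop :=
  ∀ (σ : Equiv.Perm (Fin 6)) T z, S (co σ) T z → S (co (σ * π)) T z

/-- valid frames with `Q` at the centre and `S` for the numbers of the colours -/
structure CB (Q : Cnd) (S : Cnl) (NW TC : ℕ) (F : FrW) : Prop where
  ok : FOk (kap TC) (cxv NW TC) F
  q : Q F.U F.T F.z
  s : S (co F.σ) F.T F.z

/-- also `R` at the point in the direction `b` -/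
structure CV (Q : Cnd) (S : Cnl) (R : Cnd) (NW TC : ℕ) (F : FrW) : Prop where
  cb : CB Q S NW TC F
  r : R F.U F.T (F.z + dir F.b)

section
variable {NP NW TC TG : ℕ} {F : FrW} {Q R : Cnd} {S : Cnl}

theorem fok_rotW (t : Tabs (kap TC) (Gp NP TC) (Ce NW TC) (ptb TG)) (hNW : NW ≤ NP)
    (h : FOk (kap TC) (cxv NW TC) F) : FOk (kap TC) (cxv NW TC) (F.rot (ptb TG 1)) :=
  h.rot (fun c => t.rot _ ⟨lt_of_lt_of_le c.2.1 hNW, c.2.2⟩) fun c =>
    ⟨⟨ptb TG 1 c.1, t.cen _ c.2 1 (by norm_num)⟩, rfl⟩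

theorem fok_mirW (t : Tabs (kap TC) (Gp NP TC) (Ce NW TC) (ptb TG)) (hNW : NW ≤ NP)
    (h : FOk (kap TC) (cxv NW TC) F) : FOk (kap TC) (cxv NW TC) (F.mir (ptb TG 6)) :=
  h.mir (fun c => t.mir _ ⟨lt_of_lt_of_le c.2.1 hNW, c.2.2⟩) fun c =>
    ⟨⟨ptb TG 6 c.1, t.cen _ c.2 6 (by norm_num)⟩, rfl⟩

theorem CB.rot (t : Tabs (kap TC) (Gp NP TC) (Ce NW TC) (ptb TG)) (hNW : NW ≤ NP) (h : CB Q S NW TC F) :
    CB Q S NW TC (F.rot (ptb TG 1)) := ⟨fok_rotW t hNW h.ok, h.q, h.s⟩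

theorem CB.mir (hQ : MC Q) (hS : MS S) (t : Tabs (kap TC) (Gp NP TC) (Ce NW TC) (ptb TG)) (hNW : NW ≤ NP)
    (h : CB Q S NW TC F) : CB Q S NW TC (F.mir (ptb TG 6)) := ⟨fok_mirW t hNW h.ok, hQ _ _ _ h.q, hS _ _ _ h.s⟩

theorem CB.col (h : CB Q S NW TC F) {π : Equiv.Perm (Fin 6)} (hS : PS S π) : CB Q S NW TC (F.col π) :=
  ⟨h.ok.col π, h.q, hS _ _ _ h.s⟩

theorem CV.mir (hQ : MC Q) (hS : MS S) (hR : MC R) (t : Tabs (kap TC) (Gp NP TC) (Ce NW TC) (ptb TG)) (hNW : NW ≤ NP)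
    (h : CV Q S R NW TC F) : CV Q S R NW TC (F.mir (ptb TG 6)) := ⟨h.cb.mir hQ hS t hNW, by
  have h1 := hR _ _ _ h.r
  rw [H61.cj_add, H61.cj_dir] at h1
  exact h1⟩

theorem CV.col (h : CV Q S R NW TC F) {π : Equiv.Perm (Fin 6)} (hS : PS S π) : CV Q S R NW TC (F.col π) :=
  ⟨h.cb.col hS, h.r⟩

theorem okPT_ofW {C : FrW → Prop} {PT NPM : ℕ} {c : ℕ → Bool}
    (h : al (fun i => isPm (Nat.land (Nat.shiftRight PT (Nat.mul 18 i)) 262143) &&
      c (Nat.land (Nat.shiftRight PT (Nat.mul 18 i)) 262143)) NPM = true)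
    (hC : ∀ (π : Equiv.Perm (Fin 6)) cp, (∀ q < 6, pn π q = cpf cp q) → c cp = true → ∀ F, C F → C (F.col π)) :
    OkPT C PT NPM := by
  intro i hi
  have h1 := al_spec h i hi
  rw [Bool.and_eq_true] at h1
  obtain ⟨π, hπ⟩ := exists_pm h1.1
  exact ⟨π, hπ, hC π _ hπ h1.2⟩

/-! ### existence of frames -/

/-- the extension of states -/
def exSW (NW TC : ℕ) (s : Cn NW TC × Fin 6 → Set (Fin 6) × Set (Fin 6)) (i : ℕ × Fin 6) :
    Set (Fin 6) × Set (Fin 6) :=
  open Classical in if h : i.1 < NW ∧ fx0 TC i.1 = true then s (⟨i.1, h⟩, i.2) else (∅, ∅)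

theorem rS_exSW (s : Cn NW TC × Fin 6 → Set (Fin 6) × Set (Fin 6)) : rS (cxv NW TC) (exSW NW TC s) = s := by
  funext i
  show exSW NW TC s (i.1.1, i.2) = s i
  unfold exSW
  exact dif_pos i.1.2

/-- **a valid frame at a centre with a direction** -/
theorem exists_fokW {U : Fin 6 → Set ℂ} {T : ℂ → Set (Fin 6)} (h : Irr U T) (z : ℂ) (b : ℝ)
    (σ : Equiv.Perm (Fin 6)) (NW TC : ℕ) :
    ∃ F : FrW, FOk (kap TC) (cxv NW TC) F ∧ F.U = U ∧ F.T = T ∧ F.z = z ∧ F.b = b ∧ F.σ = σ := by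
  set Z : Cn NW TC → ℂ := fun c => hp z b (H61.kap TC c.1) with hZ
  obtain ⟨s0, h0⟩ := rst_neW h (ct6 Z) of6 b
  obtain ⟨s1, h1⟩ := lst_neW h (ct6 Z) of6 (b + 1)
  refine ⟨⟨U, T, z, b, σ, exSW NW TC s0, exSW NW TC s1⟩, ⟨h, ?_, ?_⟩, rfl, rfl, rfl, rfl, rfl⟩
  · show rS (cxv NW TC) (exSW NW TC s0) ∈ _
    rw [rS_exSW]; exact h0
  · show rS (cxv NW TC) (exSW NW TC s1) ∈ _
    rw [rS_exSW]; exact h1

/-- **No unit pair with the conditions.** -/
theorem no_pair (H : Dead (kap TC) (CV Q S R NW TC) []) {U : Fin 6 → Set ℂ} {T : ℂ → Set (Fin 6)} (h : Irr U T)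
    {z v : ℂ} (hzv : dist z v = 1) (hq : Q U T z) {σ : Equiv.Perm (Fin 6)} (hs : S (co σ) T z) (hr : R U T v) :
    False := by
  have hn : ‖v - z‖ = 1 := by rw [← dist_eq_norm, dist_comm]; exact hzv
  obtain ⟨t, ht⟩ := Six.exists_cis hn
  have hb : v = z + dir (t / (Real.pi / 3)) := by
    have hpi : Real.pi / 3 ≠ 0 := by positivity
    unfold dir
    rw [div_mul_cancel₀ _ hpi, ← ht]
    ring
  obtain ⟨F, hok, eU, eT, ez, eb, eσ⟩ := exists_fokW h z (t / (Real.pi / 3)) σ NW TC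
  refine H F ⟨⟨hok, ?_, ?_⟩, ?_⟩ fun l hl => absurd hl List.not_mem_nil
  · rw [eU, eT, ez]; exact hq
  · rw [eT, ez, eσ]; exact hs
  · rw [eU, eT, ez, eb, ← hb]; exact hr

end

/-! ### two-pair points -/

/-- the centre is a two-pair point -/
def SD : Cnl := fun f T z => DPt T z (f 0) (f 1) (f 2) (f 3)

theorem ms_SD : MS SD := fun _ _ _ h => dpt_mir h

theorem dpt_sw1 {T : ℂ → Set (Fin 6)} {z : ℂ} {a b c d : Fin 6} (h : DPt T z a b c d) : DPt T z b a c d where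
  pal := by rw [h.pal]; ext i; simp only [mem_insert_iff, mem_singleton_iff]; tauto
  ac := h.bc
  ad := h.bd
  bc := h.ac
  bd := h.ad
  ab := h.ab.symm
  cd := h.cd
  arc1 := by rw [Set.pair_comm]; exact h.arc1
  arc2 := h.arc2

theorem dpt_sw2 {T : ℂ → Set (Fin 6)} {z : ℂ} {a b c d : Fin 6} (h : DPt T z a b c d) : DPt T z a b d c :=
  (dpt_sw1 h.swap).swap

/-- the permutation keeps the two pairs or exchanges them -/
def okD (p0 p1 p2 p3 : ℕ) : Bool :=
  (Nat.beq p0 0 && Nat.beq p1 1 || Nat.beq p0 1 && Nat.beq p1 0) &&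
      (Nat.beq p2 2 && Nat.beq p3 3 || Nat.beq p2 3 && Nat.beq p3 2) ||
    (Nat.beq p0 2 && Nat.beq p1 3 || Nat.beq p0 3 && Nat.beq p1 2) &&
      (Nat.beq p2 0 && Nat.beq p3 1 || Nat.beq p2 1 && Nat.beq p3 0)

theorem ps_SD {π : Equiv.Perm (Fin 6)} (h : okD (pn π 0) (pn π 1) (pn π 2) (pn π 3) = true) : PS SD π := by
  intro σ T z hz
  show DPt T z (co (σ * π) 0) (co (σ * π) 1) (co (σ * π) 2) (co (σ * π) 3)
  rw [co_pn, co_pn, co_pn, co_pn]
  have hz : DPt T z (co σ 0) (co σ 1) (co σ 2) (co σ 3) := hz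
  unfold okD at h
  simp only [Bool.or_eq_true, Bool.and_eq_true, nbeq] at h
  rcases h with ⟨h1 | h1, h2 | h2⟩ | ⟨h1 | h1, h2 | h2⟩ <;> rw [h1.1, h1.2, h2.1, h2.2]
  · exact hz
  · exact dpt_sw2 hz
  · exact dpt_sw1 hz
  · exact dpt_sw1 (dpt_sw2 hz)
  · exact hz.swap
  · exact (dpt_sw1 hz).swap
  · exact (dpt_sw2 hz).swap
  · exact (dpt_sw1 (dpt_sw2 hz)).swap

/-- the check of the permutations of the two-pair block -/
def okDc (cp : ℕ) : Bool := okD (cpf cp 0) (cpf cp 1) (cpf cp 2) (cpf cp 3)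

theorem exists_num4 {a b c d : Fin 6} (ab : a ≠ b) (ac : a ≠ c) (ad : a ≠ d) (bc : b ≠ c) (bd : b ≠ d) (cd : c ≠ d) :
    ∃ σ : Equiv.Perm (Fin 6), co σ 0 = a ∧ co σ 1 = b ∧ co σ 2 = c ∧ co σ 3 = d := by
  classical
  let f : {q : Fin 6 // q.val < 4} → {i : Fin 6 // i = a ∨ i = b ∨ i = c ∨ i = d} := fun q =>
    if q.1.val = 0 then ⟨a, Or.inl rfl⟩ else if q.1.val = 1 then ⟨b, Or.inr (Or.inl rfl)⟩ else
      if q.1.val = 2 then ⟨c, Or.inr (Or.inr (Or.inl rfl))⟩ else ⟨d, Or.inr (Or.inr (Or.inr rfl))⟩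
  have hf : Function.Bijective f := by
    constructor
    · rintro ⟨p, hp⟩ ⟨q, hq⟩ hpq
      have hpq : (f ⟨p, hp⟩).1 = (f ⟨q, hq⟩).1 := congrArg Subtype.val hpq
      have k : p.val = q.val := by
        by_contra hne
        simp only [f] at hpq
        split_ifs at hpq <;>
          first
          | omega
          | exact ab hpq
          | exact ab hpq.symm
          | exact ac hpq
          | exact ac hpq.symm
          | exact ad hpq
          | exact ad hpq.symm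
          | exact bc hpq
          | exact bc hpq.symm
          | exact bd hpq
          | exact bd hpq.symm
          | exact cd hpq
          | exact cd hpq.symm
      exact Subtype.ext (Fin.ext k)
    · rintro ⟨i, rfl | rfl | rfl | rfl⟩
      · exact ⟨⟨0, by norm_num⟩, rfl⟩
      · exact ⟨⟨1, by norm_num⟩, rfl⟩
      · exact ⟨⟨2, by norm_num⟩, rfl⟩
      · exact ⟨⟨3, by norm_num⟩, rfl⟩
  let e := Equiv.ofBijective f hf
  have key : ∀ q : {q : Fin 6 // q.val < 4}, e.extendSubtype q.1 = (f q).1 := fun q =>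
    e.extendSubtype_apply_of_mem q.1 q.2
  exact ⟨e.extendSubtype, key ⟨0, by norm_num⟩, key ⟨1, by norm_num⟩, key ⟨2, by norm_num⟩, key ⟨3, by norm_num⟩⟩

theorem exists_SD {T : ℂ → Set (Fin 6)} {z : ℂ} {a b c d : Fin 6} (h : DPt T z a b c d) :
    ∃ σ : Equiv.Perm (Fin 6), SD (co σ) T z := by
  obtain ⟨σ, h0, h1, h2, h3⟩ := exists_num4 h.ab h.ac h.ad h.bc h.bd h.cd
  refine ⟨σ, ?_⟩
  show DPt T z (co σ 0) (co σ 1) (co σ 2) (co σ 3)
  rw [h0, h1, h2, h3]
  exact h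

/-- at least four colours -/
def RV : Cnd := fun _ T v => 4 ≤ (T v).ncard

theorem mc_RV : MC RV := mc_ge 4

/-! ### points with at least five colours -/

/-- the centre has the colours `0, .., n - 1` -/
def SX (n : ℕ) : Cnl := fun f T z => ∀ q < 6, f q ∈ T z ↔ q < n

theorem ms_SX (n : ℕ) : MS (SX n) := fun f T z h q hq => by
  rw [mT_cj]; exact h q hq

theorem ps_SX {n : ℕ} {π : Equiv.Perm (Fin 6)} (h : ∀ q < 6, pn π q < n ↔ q < n) : PS (SX n) π := by
  intro σ T z hz q hq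
  rw [co_pn, hz _ (pn_lt π q), h q hq]

/-- the permutation keeps the numbers below `n` -/
def okXc (n cp : ℕ) : Bool := al (fun q => bif lb q n then lb (cpf cp q) n else Nat.ble n (cpf cp q)) 6

theorem ps_SX_of {n cp : ℕ} {π : Equiv.Perm (Fin 6)} (hπ : ∀ q < 6, pn π q = cpf cp q) (h : okXc n cp = true) :
    PS (SX n) π := by
  refine ps_SX fun q hq => ?_
  have h1 := al_spec h q hq
  rw [hπ q hq]
  by_cases h2 : q < n
  · rw [lb_iff.2 h2, cond_true, lb_iff] at h1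
    exact ⟨fun _ => h2, fun _ => h1⟩
  · have h3 : lb q n = false := by rw [← Bool.not_eq_true, lb_iff]; exact h2
    rw [h3, cond_false, Nat.ble_eq] at h1
    exact ⟨fun h4 => absurd h4 (by omega), fun h4 => absurd h4 h2⟩

theorem exists_SX {T : ℂ → Set (Fin 6)} {z : ℂ} : ∃ σ : Equiv.Perm (Fin 6), SX (T z).ncard (co σ) T z := by
  classical
  have hc : Fintype.card {q : Fin 6 // q.val < (T z).ncard} = Fintype.card {i : Fin 6 // i ∈ T z} := by
    have h1 : (T z).ncard ≤ 6 := by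
      have := Set.ncard_le_ncard (subset_univ (T z)) (Set.toFinite _)
      rw [Set.ncard_univ, Nat.card_eq_fintype_card, Fintype.card_fin] at this
      exact this
    have h2 : Fintype.card {i : Fin 6 // i ∈ T z} = (T z).ncard := by
      rw [← Nat.card_eq_fintype_card]
      rfl
    rw [h2, Fintype.card_subtype]
    have h3 : ∀ m ≤ 6, (Finset.univ.filter fun q : Fin 6 => q.val < m).card = m := by decide
    exact h3 _ h1
  obtain ⟨e⟩ := Fintype.card_eq.1 hc
  refine ⟨e.extendSubtype, fun q hq => ?_⟩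
  unfold H357.MK.co
  have h1 : (Fin.ofNat 6 q).val = q := Nat.mod_eq_of_lt hq
  constructor
  · intro h2
    by_contra h3
    refine e.extendSubtype_not_mem (Fin.ofNat 6 q) ?_ h2
    rw [h1]
    exact h3
  · intro h2
    refine e.extendSubtype_mem (Fin.ofNat 6 q) ?_
    rw [h1]
    exact h2

/-- the conditions of the five and six block, `W` a further condition -/
def QX (W : Cnd) : Cnd := fun U T z => (Mn U T ∧ Ln U T) ∧ W U T z

theorem mc_QX {W : Cnd} (h : MC W) : MC (QX W) := (mc_mn.and mc_ln).and h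

end Vale.Agent.P032.H529.W
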