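import Vale.Agent.P032.H529.W.FrI
import Vale.Agent.P032.H535.Adapt

/-!
# P032: the statements of `H535/Adapt.lean` from dead classes of wild frames

* `noDc_of`, `noD0_of` : two-pair points,
* `noX_of`, `noX0_of`, `noXs_of` : points with at least five colours.
-/

open Set Filter Topology Metric

noncomputable section

namespace Vale.Agent.P032.H529.W

open Vale.Agent.P032.Six Vale.Agent.P032.Words Vale.Agent.P032.S5.H767 Vale.Agent.P032.H892
  Vale.Agent.P032.H913 Vale.Agent.P032.H357 Vale.Agent.P032.H556 Vale.Agent.P032.H515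
open Vale.Agent.P032.H61 (mU mT kap cxv)
open Vale.Agent.P032.H357.MK (co)
open Vale.Agent.P032.H535 (NDp NXp NoDc NoXs NoX0 NoD0 NoX6 NoX5 NoFrame)

theorem mc_ndp : MC fun _ T _ => NDp T := fun U T _ h z v a b c d hz hzv hv => by
  refine h (cj z) (cj v) a b c d (dpt_mir' hz) (by rw [dist_cj]; exact hzv) hv

theorem mc_nxp : MC fun _ T _ => NXp T := fun U T _ h z v hzv hz hv =>
  h (cj z) (cj v) (by rw [dist_cj]; exact hzv) hz hv

/-- the conditions of the first two-pair block (`H535.NoDc`) -/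
def QD : Cnd := fun U T z => (Mn U T ∧ Ln U T) ∧ Ctn U T z

theorem mc_QD : MC QD := (mc_mn.and mc_ln).and mc_ctn

/-- **The first two-pair block.** -/
theorem noDc_of {NW TC : ℕ} (H : Dead (kap TC) (CV QD SD RV NW TC) []) : NoDc := by
  intro U T h hm hl z v a b c d hc hz hzv hv
  obtain ⟨σ, hσ⟩ := exists_SD hz
  exact no_pair H h hzv ⟨⟨hm, hl⟩, hc⟩ hσ hv

/-- the conditions of the second two-pair block (`H535.NoD0`) -/
def QD0 : Cnd := fun U T z => (QD U T z ∧ NXp T) ∧ ∀ y, dist z y = 1 → (T y).ncard ≤ 4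

/-- exactly four colours, at most four colours on the circle -/
def RV0 : Cnd := fun _ T v => (T v).ncard = 4 ∧ ∀ y, dist v y = 1 → (T y).ncard ≤ 4

theorem mc_QD0 : MC QD0 := (mc_QD.and mc_nxp).and (mc_circ (mc_le 4))

theorem mc_RV0 : MC RV0 := (mc_eq 4).and (mc_circ (mc_le 4))

/-- **The second two-pair block.** -/
theorem noD0_of {NW TC : ℕ} (H : Dead (kap TC) (CV QD0 SD RV0 NW TC) []) : NoD0 := by
  intro U T h hm hl hx z v a b c d hc h1 h2 hz hzv hv
  obtain ⟨σ, hσ⟩ := exists_SD hz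
  exact no_pair H h hzv ⟨⟨⟨⟨hm, hl⟩, hc⟩, hx⟩, h1⟩ hσ ⟨hv, h2⟩

/-- **The blocks of the points with at least five colours**, a further condition `W`. -/
theorem noX_of {NW TC NW' TC' : ℕ} {W : Cnd} (H5 : Dead (kap TC) (CV (QX W) (SX 5) RV NW TC) [])
    (H6 : Dead (kap TC') (CV (QX W) (SX 6) RV NW' TC') []) {U : Fin 6 → Set ℂ} {T : ℂ → Set (Fin 6)} (h : Irr U T)
    (hm : Mn U T) (hl : Ln U T) (hW : ∀ z, W U T z) : NXp T := by
  intro z v hzv hz hv
  obtain ⟨σ, hσ⟩ := exists_SX (T := T) (z := z)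
  have h6 : (T z).ncard ≤ 6 := by
    have := Set.ncard_le_ncard (subset_univ (T z)) (Set.toFinite _)
    rw [Set.ncard_univ, Nat.card_eq_fintype_card, Fintype.card_fin] at this
    exact this
  rcases Nat.lt_or_ge (T z).ncard 6 with h1 | h1
  · have e : (T z).ncard = 5 := by omega
    rw [e] at hσ
    exact no_pair H5 h hzv ⟨⟨hm, hl⟩, hW z⟩ hσ hv
  · have e : (T z).ncard = 6 := by omega
    rw [e] at hσ
    exact no_pair H6 h hzv ⟨⟨hm, hl⟩, hW z⟩ hσ hv

/-- points with at least five colours, no other condition -/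
theorem noX0_of {NW TC NW' TC' : ℕ} (H5 : Dead (kap TC) (CV (QX fun _ _ _ => True) (SX 5) RV NW TC) [])
    (H6 : Dead (kap TC') (CV (QX fun _ _ _ => True) (SX 6) RV NW' TC') []) : NoX0 := fun _ _ h hm hl =>
  noX_of H5 H6 h hm hl fun _ => trivial

/-- points with at least five colours after the two-pair points -/
theorem noXs_of {NW TC NW' TC' : ℕ} (H5 : Dead (kap TC) (CV (QX fun _ T _ => NDp T) (SX 5) RV NW TC) [])
    (H6 : Dead (kap TC') (CV (QX fun _ T _ => NDp T) (SX 6) RV NW' TC') []) : NoXs := fun _ _ h hm hl hD =>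
  noX_of H5 H6 h hm hl fun _ => hD

/-- **the frame is impossible** from dead classes: first the two-pair points -/
theorem noFrame_of_DX {NW TC NW5 TC5 NW6 TC6 : ℕ} (HD : Dead (kap TC) (CV QD SD RV NW TC) [])
    (H5 : Dead (kap TC5) (CV (QX fun _ T _ => NDp T) (SX 5) RV NW5 TC5) [])
    (H6 : Dead (kap TC6) (CV (QX fun _ T _ => NDp T) (SX 6) RV NW6 TC6) []) : NoFrame :=
  NoFrame.of_DX (noDc_of HD) (noXs_of H5 H6)

/-- **the frame is impossible** from dead classes: first the points with at least five colours -/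
theorem noFrame_of_XD {NW TC NW5 TC5 NW6 TC6 : ℕ} (HD : Dead (kap TC) (CV QD0 SD RV0 NW TC) [])
    (H5 : Dead (kap TC5) (CV (QX fun _ _ _ => True) (SX 5) RV NW5 TC5) [])
    (H6 : Dead (kap TC6) (CV (QX fun _ _ _ => True) (SX 6) RV NW6 TC6) []) : NoFrame :=
  NoFrame.of_XD (noX0_of H5 H6) (noD0_of HD)

end Vale.Agent.P032.H529.W
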